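import Vale.Agent.P218ND.Loc

/-! Weak solutions of the linearised equation are velocities: the duality argument. -/

open MeasureTheory Set Filter Topology Metric Module
open scoped ENNReal NNReal RealInnerProductSpace ContDiff

namespace Vale.Agent.P218ND

open Vale.Agent.P218.H63 (stab gaussArea)

variable {E : Type*} [NormedAddCommGroup E] [InnerProductSpace ℝ E] [FiniteDimensional ℝ E]
  [MeasurableSpace E] [BorelSpace E] {m : ℕ} {w : E → ℝ} {δ C : ℝ}
variable {P : Type*} [AddCommGroup P] [Module ℝ P] {Λ : Type*} [AddCommGroup Λ] [Module ℝ Λ]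

/-- pairing with the multipliers -/
noncomputable def pairL {μ : Measure E} {e : Λ →ₗ[ℝ] (E → ℝ)} (he : ∀ l, MemLp (e l) 2 μ)
    {u : E → ℝ} (hu : MemLp u 2 μ) : Λ →ₗ[ℝ] ℝ where
  toFun l := ∫ x, u x * e l x ∂μ
  map_add' a b := by
    rw [← integral_add (int_mul hu (he a)) (int_mul hu (he b))]
    congr 1
    ext x
    simp [mul_add]
  map_smul' c a := by
    simp only [map_smul, Pi.smul_apply, smul_eq_mul, RingHom.id_apply, mul_left_comm _ c]
    exact integral_const_mul _ _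

namespace Shr

variable (h : Shr m w δ C)
include h

theorem nd_of_solv {v : P →ₗ[ℝ] (E → ℝ)} {e : Λ →ₗ[ℝ] (E → ℝ)}
    (hv : ∀ b, MemLp (v b) 2 (ga m w)) (he : ∀ l, MemLp (e l) 2 (ga m w))
    (vel : ∀ b, ∃ l, LocSol w (v b) (e l))
    (surj : ∀ φ : Λ →ₗ[ℝ] ℝ, ∃ b, ∀ l, ∫ x, v b x * e l x ∂(ga m w) = φ l)
    (solv : ∀ g : E → ℝ, ContDiff ℝ ∞ g → HasCompactSupport g →
      ∃ U l, LocSol w U (fun x => g x + e l x) ∧ MemLp U 2 (ga m w))
    (u : E → ℝ) (l : Λ) (hu : MemLp u 2 (ga m w))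
    (hweak : ∀ ζ : E → ℝ, ContDiff ℝ 2 ζ → HasCompactSupport ζ →
      ∫ x, u x * stab w ζ x ∂(ga m w) = ∫ x, e l x * ζ x ∂(ga m w)) :
    ∃ b, u =ᵐ[ga m w] v b := by
  have hfin := h.finite
  obtain ⟨b, hb⟩ := surj (pairL he hu)
  obtain ⟨l₀, hl₀⟩ := vel b
  have hu' : MemLp (fun x => u x - v b x) 2 (ga m w) := hu.sub (hv b)
  have orth : ∀ l', ∫ x, (u x - v b x) * e l' x ∂(ga m w) = 0 := by
    intro l'
    simp only [sub_mul]
    rw [integral_sub (int_mul hu (he l')) (int_mul (hv b) (he l')), hb]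
    exact sub_self _
  have weak' : ∀ ζ : E → ℝ, ContDiff ℝ 2 ζ → HasCompactSupport ζ →
      ∫ x, (u x - v b x) * stab w ζ x ∂(ga m w) = ∫ x, e (l - l₀) x * ζ x ∂(ga m w) := by
    intro ζ h1 h2
    have s1 : MemLp ζ 2 (ga m w) := h1.continuous.memLp_of_hasCompactSupport h2
    have s2 : MemLp (stab w ζ) 2 (ga m w) := by
      refine (continuous_stab h.tube.smooth h1).memLp_of_hasCompactSupport
        (HasCompactSupport.intro h2 fun x hx => ?_)
      have e0 : ζ =ᶠ[𝓝 x] fun _ => 0 := notMem_tsupport_iff_eventuallyEq.1 hx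
      rw [stab_eq, L0_of_const e0, e0.eq_of_nhds]
      ring
    simp only [sub_mul, map_sub, Pi.sub_apply]
    rw [integral_sub (int_mul hu s2) (int_mul (hv b) s2), integral_sub (int_mul (he l) s1)
      (int_mul (he l₀) s1), hweak ζ h1 h2, h.weak_of_loc hl₀ h1 h2]
  have l0 : l - l₀ = 0 := by
    rw [← Module.forall_dual_apply_eq_zero_iff ℝ]
    intro φ
    obtain ⟨b', hb'⟩ := surj φ
    obtain ⟨l', hl'⟩ := vel b'
    have := h.test_loc hu' (he _) weak' hl' (hv b') (he l')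
    rw [orth] at this
    rw [← hb']
    simpa only [mul_comm] using this.symm
  refine ⟨b, ?_⟩
  have key : ∀ᵐ x ∂(ga m w), u x - v b x = 0 := by
    refine ae_eq_zero_of_integral_contDiff_smul_eq_zero
      (hu'.integrable (by norm_num)).locallyIntegrable fun g g1 g2 => ?_
    obtain ⟨U, l', a1, a2⟩ := solv g g1 g2
    have s1 : MemLp g 2 (ga m w) := g1.continuous.memLp_of_hasCompactSupport g2
    have := h.test_loc hu' (he _) weak' a1 a2 (s1.add (he l'))
    simp only [mul_add, l0, map_zero, Pi.zero_apply, zero_mul, integral_zero] at this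
    rw [integral_add (int_mul hu' s1) (int_mul hu' (he l')), orth, add_zero] at this
    simpa only [smul_eq_mul, mul_comm] using this
  filter_upwards [key] with x hx using sub_eq_zero.1 hx

omit h in
theorem surj_of_inj [FiniteDimensional ℝ P] [FiniteDimensional ℝ Λ] {μ : Measure E}
    (hd : finrank ℝ P = finrank ℝ Λ) {v : P →ₗ[ℝ] (E → ℝ)} {e : Λ →ₗ[ℝ] (E → ℝ)}
    (hv : ∀ b, MemLp (v b) 2 μ) (he : ∀ l, MemLp (e l) 2 μ)
    (pair : ∀ b, (∀ l, ∫ x, v b x * e l x ∂μ = 0) → b = 0) (φ : Λ →ₗ[ℝ] ℝ) :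
    ∃ b, ∀ l, ∫ x, v b x * e l x ∂μ = φ l := by
  let B : P →ₗ[ℝ] Module.Dual ℝ Λ :=
    { toFun := fun b => pairL he (hv b)
      map_add' := fun a b => by
        ext l
        change ∫ x, v (a + b) x * e l x ∂μ = ∫ x, v a x * e l x ∂μ + ∫ x, v b x * e l x ∂μ
        rw [← integral_add (int_mul (hv a) (he l)) (int_mul (hv b) (he l))]
        congr 1
        ext x
        simp [add_mul]
      map_smul' := fun c a => by
        ext l
        change ∫ x, v (c • a) x * e l x ∂μ = c * ∫ x, v a x * e l x ∂μ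
        simp only [map_smul, Pi.smul_apply, smul_eq_mul, mul_assoc]
        exact integral_const_mul _ _ }
  have hi : Function.Injective B := by
    rw [injective_iff_map_eq_zero]
    exact fun b hb => pair b fun l => congrArg (fun L : Module.Dual ℝ Λ => L l) hb
  have hs := (LinearMap.injective_iff_surjective_of_finrank_eq_finrank
    (hd.trans Subspace.dual_finrank_eq.symm)).1 hi
  obtain ⟨b, hb⟩ := hs φ
  exact ⟨b, fun l => congrArg (fun L : Module.Dual ℝ Λ => L l) hb⟩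

/-- **The fields `inj`, `indep`, `nd`.** -/
theorem co9 [FiniteDimensional ℝ P] [FiniteDimensional ℝ Λ] (hd : finrank ℝ P = finrank ℝ Λ)
    {v : P →ₗ[ℝ] (E → ℝ)} {e : Λ →ₗ[ℝ] (E → ℝ)}
    (hv : ∀ b, MemLp (v b) 2 (ga m w)) (he : ∀ l, MemLp (e l) 2 (ga m w))
    (vel : ∀ b, ∃ l, LocSol w (v b) (e l))
    (pair : ∀ b, (∀ l, ∫ x, v b x * e l x ∂(ga m w) = 0) → b = 0)
    (solv : ∀ g : E → ℝ, ContDiff ℝ ∞ g → HasCompactSupport g →
      ∃ U l, LocSol w U (fun x => g x + e l x) ∧ MemLp U 2 (ga m w)) :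
    (∀ b, (∀ x, w x = 0 → v b x = 0) → b = 0) ∧ (∀ l, (∀ x, w x = 0 → e l x = 0) → l = 0) ∧
    ∀ (u : E → ℝ) (l : Λ), MemLp u 2 (gaussArea m {x | w x = 0}) →
      (∀ ζ : E → ℝ, ContDiff ℝ 2 ζ → HasCompactSupport ζ →
        ∫ x, u x * stab w ζ x ∂(gaussArea m {x | w x = 0})
          = ∫ x, e l x * ζ x ∂(gaussArea m {x | w x = 0})) →
      ∃ b, u =ᵐ[gaussArea m {x | w x = 0}] v b := by
  have surj := surj_of_inj hd hv he pair
  refine ⟨fun b hb => pair b fun l => ?_, fun l hl => ?_, h.nd_of_solv hv he vel surj solv⟩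
  · refine integral_eq_zero_of_ae ?_
    filter_upwards [h.ae_zero] with x hx
    simp [hb x hx]
  · rw [← Module.forall_dual_apply_eq_zero_iff ℝ]
    intro φ
    obtain ⟨b, hb⟩ := surj φ
    rw [← hb]
    refine integral_eq_zero_of_ae ?_
    filter_upwards [h.ae_zero] with x hx
    simp [hl x hx]

end Shr

end Vale.Agent.P218ND
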