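import Vale.Agent.P218ND.Brg2
import Vale.Agent.P218ND.Nd
import Vale.Agent.P218GA.ModelB

/-! The stability operator on the parameter surface of the working model. -/

open MeasureTheory Set Filter Topology Module
open scoped RealInnerProductSpace ContDiff

namespace Vale.Agent.P218ND

set_option linter.unusedSectionVars false

open Vale.Agent.P218.H63 (IsTubeShrinker hessSq stab inner_gradient gaussArea)
open Vale.Agent.P218VA
open Vale.Agent.P218GA (E3 crs grm Model grm_pos indep_u cH RImm muX gam gam_restrict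
  range_domRestrict' cH_pos cH_pos')
open Vale.Agent.P272.K.LIN

/-- a parametrisation of a hypersurface has a local retraction -/
theorem exists_retr {E : Type*} [NormedAddCommGroup E] [InnerProductSpace ℝ E]
    [FiniteDimensional ℝ E] {D : Type*} [NormedAddCommGroup D] [NormedSpace ℝ D]
    [FiniteDimensional ℝ D] (hd : finrank ℝ E = finrank ℝ D + 1) {X : D → E} {y : D}
    {n : WithTop ℕ∞} (hn : n ≠ 0) (hX : ContDiffAt ℝ n X y)
    (hi : Function.Injective (fderiv ℝ X y)) {w : E → ℝ} (hw : ContDiffAt ℝ 1 w (X y))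
    (hν : ‖gradient w (X y)‖ = 1) (h0 : ∀ᶠ z in 𝓝 y, w (X z) = 0) :
    ∃ r : E → D, ContDiffAt ℝ n r (X y) ∧ r (X y) = y ∧ (∀ᶠ z in 𝓝 y, r (X z) = z) ∧
      ∀ᶠ x in 𝓝 (X y), w x = 0 → X (r x) = x := by
  have := FiniteDimensional.complete ℝ D
  set ν := gradient w (X y) with hνd
  have hXd := (hX.differentiableAt hn).hasFDerivAt
  have hws : HasStrictFDerivAt w (fderiv ℝ w (X y)) (X y) := hw.hasStrictFDerivAt one_ne_zero
  have h1 : ∀ v, fderiv ℝ w (X y) (fderiv ℝ X y v) = 0 := fun v =>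
    congrArg (fun L : D →L[ℝ] ℝ => L v) ((hws.hasFDerivAt.comp y hXd).unique
      ((hasFDerivAt_const (0 : ℝ) y).congr_of_eventuallyEq h0))
  have h2 : fderiv ℝ w (X y) ν = 1 := by
    rw [← inner_gradient, real_inner_self_eq_norm_sq, hν, one_pow]
  set Φ : D × ℝ → E := fun p => X p.1 + p.2 • ν with hΦ
  set L : D × ℝ →L[ℝ] E := (fderiv ℝ X y).comp (ContinuousLinearMap.fst ℝ D ℝ)
    + (ContinuousLinearMap.snd ℝ D ℝ).smulRight ν with hL
  have hΦc : ContDiffAt ℝ n Φ (y, 0) :=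
    (ContDiffAt.comp (g := X) (y, (0 : ℝ)) hX contDiffAt_fst).add
      (contDiffAt_snd.smul contDiffAt_const)
  have hΦd : HasFDerivAt Φ L (y, 0) :=
    (HasFDerivAt.comp (g := X) (y, (0 : ℝ)) hXd hasFDerivAt_fst).add
      (hasFDerivAt_snd.smul_const ν)
  have hLi : Function.Injective (L : D × ℝ →ₗ[ℝ] E) := by
    rw [injective_iff_map_eq_zero]
    rintro ⟨v, t⟩ h
    have h3 : fderiv ℝ X y v + t • ν = 0 := h
    have h4 := congrArg (fderiv ℝ w (X y)) h3
    rw [map_add, map_smul, h1, h2, map_zero, zero_add, smul_eq_mul, mul_one] at h4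
    rw [h4, zero_smul, add_zero] at h3
    exact Prod.ext (hi (h3.trans (map_zero _).symm)) h4
  let e : (D × ℝ) ≃L[ℝ] E := (LinearMap.linearEquivOfInjective _ hLi
    (by rw [hd, finrank_prod, finrank_self])).toContinuousLinearEquiv
  have he : HasFDerivAt Φ (e : D × ℝ →L[ℝ] E) (y, 0) := by
    refine hΦd.congr_fderiv ?_
    ext v <;> rfl
  have hs := hΦc.hasStrictFDerivAt' he hn
  have e0 : Φ (y, 0) = X y := by simp [hΦ]
  have k1 := hΦc.to_localInverse he hn
  have k2 := hΦc.localInverse_apply_image he hn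
  have k3 : ∀ᶠ p in 𝓝 (y, (0 : ℝ)), hΦc.localInverse he hn (Φ p) = p := hs.eventually_left_inverse
  have k4 : ∀ᶠ x in 𝓝 (Φ (y, 0)), Φ (hΦc.localInverse he hn x) = x := hs.eventually_right_inverse
  rw [e0] at k1 k2 k4
  set Ψ := hΦc.localInverse he hn
  have t1 : Tendsto Ψ (𝓝 (X y)) (𝓝 (y, 0)) := k2 ▸ k1.continuousAt.tendsto
  have t2 : Tendsto (fun x => (Ψ x).1) (𝓝 (X y)) (𝓝 y) := (continuous_fst.tendsto _).comp t1
  refine ⟨fun x => (Ψ x).1, k1.fst, by simp only [k2], ?_, ?_⟩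
  · have t3 : Tendsto (fun z : D => (z, (0 : ℝ))) (𝓝 y) (𝓝 (y, 0)) :=
      (continuous_id.prodMk continuous_const).tendsto _
    filter_upwards [t3.eventually k3] with z hz
    simp only [hΦ, zero_smul, add_zero] at hz
    rw [hz]
  · have t4 : Tendsto (fun x => (x, X (Ψ x).1)) (𝓝 (X y)) (𝓝 (X y, X y)) :=
      tendsto_id.prodMk_nhds (hXd.continuousAt.tendsto.comp t2)
    filter_upwards [k4, t2.eventually h0, t4.eventually (hws.isLittleO.def one_half_pos)]
      with x a b c hx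
    have h3 : x - X (Ψ x).1 = (Ψ x).2 • ν := by
      rw [sub_eq_iff_eq_add']; exact a.symm
    simp only [hx, b, h3, map_smul, h2, norm_smul, hν, sub_self, zero_sub, norm_neg, smul_eq_mul,
      mul_one] at c
    have h4 : (Ψ x).2 = 0 := norm_le_zero_iff.1 (by linarith [norm_nonneg (Ψ x).2])
    rw [h4, zero_smul, sub_eq_zero] at h3
    exact h3.symm

variable {S : Set E3} {w : E3 → ℝ} {δ C : ℝ} {ι κ M : Type} [TopologicalSpace M]
  [ChartedSpace E2 M] (m : Model S w δ C ι κ M)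

/-- the stability operator acting on functions on the parameter surface -/
noncomputable def LM (u : M → ℝ) (x : M) : ℝ :=
  LchF u1 u2 (cX (chartAt E2 x) m.F) (hessSq w (m.F x) + 1 / 2) (cX (chartAt E2 x) u)
    (chartAt E2 x x) / grm (pd (cX (chartAt E2 x) m.F) u1 (chartAt E2 x x))
      (pd (cX (chartAt E2 x) m.F) u2 (chartAt E2 x x)) ^ 2

/-- a function on the parameter surface as a function on the ambient space -/
noncomputable def amb (u : M → ℝ) : E3 → ℝ :=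
  Function.extend (fun x : m.reg => m.F x) (fun x => u x) 0

lemma amb_F (u : M → ℝ) {x : M} (hx : x ∈ m.reg) : amb m u (m.F x) = u x :=
  Function.Injective.extend_apply (f := fun x : m.reg => m.F x)
    (fun a b h => Subtype.ext (m.inj a.2 b.2 h)) _ _ ⟨x, hx⟩

lemma exists_pre {p : E3} (hp : w p = 0) : ∃ x ∈ m.reg, m.F x = p :=
  m.image.symm.subset ((m.shr.mem_iff p).2 hp)

include m in
lemma shr : Shr 2 w δ C := Shr.of_shrinker (by simp) m.shr

lemma LM_congr {u v : M → ℝ} {x : M} (h : u =ᶠ[𝓝 x] v) : LM m u x = LM m v x := by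
  rw [LM, LM, LchF_congr (cX_congr (mem_chart_source E2 x) h)]

variable [Finite ι] [Finite κ] [T2Space M] {x : M} {u v : M → ℝ}

lemma ev_reg (hx : x ∈ m.reg) : ∀ᶠ z in 𝓝 x, z ∈ m.reg := m.isOpen_reg.mem_nhds hx

lemma grm_chart {e : OpenPartialHomeomorph M E2} (he : e ∈ atlas E2 M) (hx : x ∈ m.reg)
    (hxe : x ∈ e.source) : 0 < grm (pd (cX e m.F) u1 (e x)) (pd (cX e m.F) u2 (e x)) :=
  grm_pos (m.rimm.inj x hx e he hxe) indep_u

lemma cX_self {G : Type*} {e : OpenPartialHomeomorph M E2} (f : M → G) (hxe : x ∈ e.source) :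
    cX e f (e x) = f x := by rw [cX, e.left_inv hxe]

theorem LM_eq_stab (hx : x ∈ m.reg) {ζ : E3 → ℝ} (hζ : ContDiffAt ℝ 2 ζ (m.F x))
    (hu : ∀ᶠ z in 𝓝 x, ζ (m.F z) = u z) : LM m u x = stab w ζ (m.F x) := by
  have hc := chart_mem_atlas E2 x
  have hx0 := mem_chart_source E2 x
  have h1 := stab_chart m.shr (m.rimm.ck x hx _ hc hx0)
    ((m.eventually_mem hx hx0).mono fun y hy => (m.shr.mem_iff _).1 hy) (ζ := ζ)
    (by rwa [cX_self _ hx0]) (u := cX (chartAt E2 x) u) ((tendsto_symm hx0).eventually hu) u1 u2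
  rw [cX_self _ hx0] at h1
  rw [LM, ← h1, mul_div_cancel_left₀ _ (pow_ne_zero 2 (grm_chart m hc hx hx0).ne')]

/-- local extension of functions on the surface -/
theorem exists_zeta {n : WithTop ℕ∞} (hn : n ≠ 0) (hn' : n ≤ ∞) (hx : x ∈ m.reg)
    {G : Type*} [NormedAddCommGroup G] [NormedSpace ℝ G] {u : M → G} (hu : CkAt n u x) :
    ∃ ζ : E3 → G, ContDiffAt ℝ n ζ (m.F x) ∧ (∀ᶠ z in 𝓝 x, ζ (m.F z) = u z) ∧
      ∀ U : E3 → G, (∀ᶠ z in 𝓝 x, U (m.F z) = u z) → ∀ᶠ p in 𝓝 (m.F x), w p = 0 → ζ p = U p := by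
  have hc := chart_mem_atlas E2 x
  have hx0 := mem_chart_source E2 x
  set c := chartAt E2 x
  obtain ⟨r, r1, r2, r3, r4⟩ := exists_retr (E := E3) (D := E2) (by simp) hn
    ((m.ckAt_F hx c hc hx0).of_le hn') (m.rimm.inj x hx c hc hx0) m.tube.cd1.contDiffAt
    (m.tube.unit _ (by rw [cX_self _ hx0]; exact m.w_F hx))
    ((m.eventually_mem hx hx0).mono fun y hy => (m.shr.mem_iff _).1 hy)
  rw [cX_self _ hx0] at r1 r2 r4
  have t : Tendsto r (𝓝 (m.F x)) (𝓝 (c x)) := r2 ▸ r1.continuousAt.tendsto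
  refine ⟨fun p => cX c u (r p), ContDiffAt.comp (g := cX c u) _ (r2 ▸ hu c hc hx0) r1, ?_,
    fun U hU => ?_⟩
  · filter_upwards [(c.continuousAt hx0).tendsto.eventually r3, c.open_source.mem_nhds hx0]
      with z a b
    rw [cX_self _ b] at a
    rw [a, cX_self _ b]
  · filter_upwards [r4, t.eventually ((tendsto_symm hx0).eventually hU)] with p a b hp
    rw [cX, ← b]
    exact congrArg U (a hp)

lemma LM_add (hx : x ∈ m.reg) (hu : CkAt 2 u x) (hv : CkAt 2 v x) :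
    LM m (fun z => u z + v z) x = LM m u x + LM m v x := by
  obtain ⟨a, a1, a2, -⟩ := exists_zeta m two_ne_zero two_le_inf hx hu
  obtain ⟨b, b1, b2, -⟩ := exists_zeta m two_ne_zero two_le_inf hx hv
  obtain ⟨a', a3, a4⟩ := exists_glob a1
  obtain ⟨b', b3, b4⟩ := exists_glob b1
  have t := (m.ckAt_F hx).continuousAt.tendsto
  rw [LM_eq_stab m hx a1 a2, LM_eq_stab m hx b1 b2, LM_eq_stab m hx (a3.add b3).contDiffAt (by
    filter_upwards [a2, b2, t.eventually a4, t.eventually b4] with z h1 h2 h3 h4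
    rw [h3, h4, h1, h2]), stab_add a3 b3, stab_congr a4, stab_congr b4]

lemma LM_cmul (hx : x ∈ m.reg) (c : ℝ) (hu : CkAt 2 u x) :
    LM m (fun z => c * u z) x = c * LM m u x := by
  obtain ⟨a, a1, a2, -⟩ := exists_zeta m two_ne_zero two_le_inf hx hu
  obtain ⟨a', a3, a4⟩ := exists_glob a1
  have t := (m.ckAt_F hx).continuousAt.tendsto
  rw [LM_eq_stab m hx a1 a2, LM_eq_stab m hx (contDiff_const.mul a3).contDiffAt (by
    filter_upwards [a2, t.eventually a4] with z h1 h3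
    rw [h3, h1]), stab_cmul c a3, stab_congr a4]

section param
variable {D : Type*} [NormedAddCommGroup D] [NormedSpace ℝ D] {Y : D → M} {y : D}

/-- the operator in an arbitrary parametrisation -/
theorem LM_param (hy : Y y ∈ m.reg) (hY : ContinuousAt Y y)
    (hX : ContDiffAt ℝ 2 (fun z => m.F (Y z)) y) (hu : CkAt 2 u (Y y)) (d1 d2 : D) :
    grm (pd (fun z => m.F (Y z)) d1 y) (pd (fun z => m.F (Y z)) d2 y) ^ 2 * LM m u (Y y)
      = LchF d1 d2 (fun z => m.F (Y z)) (hessSq w (m.F (Y y)) + 1 / 2) (fun z => u (Y z)) y := by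
  obtain ⟨a, a1, a2, -⟩ := exists_zeta m two_ne_zero two_le_inf hy hu
  rw [LM_eq_stab m hy a1 a2]
  exact stab_chart m.shr hX ((hY.tendsto.eventually (ev_reg m hy)).mono fun z hz => m.w_F hz) a1
    (hY.tendsto.eventually a2) d1 d2

/-- **The bridge** in an arbitrary parametrisation: `u` is the normal part of `V`. -/
theorem dPP_param (hy : Y y ∈ m.reg) (hY : ContinuousAt Y y)
    (hX : ContDiffAt ℝ 2 (fun z => m.F (Y z)) y) (hu : CkAt 2 u (Y y)) {V : D → E3}
    (hV : ContDiffAt ℝ 2 V y) (huV : ∀ᶠ z in 𝓝 y, u (Y z) = ⟪m.nu (Y z), V z⟫) {d1 d2 : D}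
    (hg : grm (pd (fun z => m.F (Y z)) d1 y) (pd (fun z => m.F (Y z)) d2 y) ≠ 0) :
    ⟪crs (pd (fun z => m.F (Y z)) d1 y) (pd (fun z => m.F (Y z)) d2 y), m.nu (Y y)⟫
        * dPPrF d1 d2 (fun z => m.F (Y z)) V y
      = grm (pd (fun z => m.F (Y z)) d1 y) (pd (fun z => m.F (Y z)) d2 y) ^ 2 * LM m u (Y y) := by
  rw [LM_param m hy hY hX hu, LchF_congr huV]
  exact dPP_chart m.shr hX ((hY.tendsto.eventually (ev_reg m hy)).mono fun z hz => m.w_F hz) hV hg

end param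

/-- solutions on the surface are local solutions -/
theorem locSol_of_LM {U g : E3 → ℝ} (hu : ∀ x ∈ m.reg, CkAt 2 u x)
    (hU : ∀ x ∈ m.reg, U (m.F x) = u x) (hg : ∀ x ∈ m.reg, LM m u x = g (m.F x)) :
    LocSol w U g := by
  intro p hp
  obtain ⟨x, hx, rfl⟩ := exists_pre m hp
  obtain ⟨a, a1, a2, a3⟩ := exists_zeta m two_ne_zero two_le_inf hx (hu x hx)
  exact ⟨a, a1, a3 U ((ev_reg m hx).mono hU), by rw [← LM_eq_stab m hx a1 a2, hg x hx]⟩

theorem locSol_amb (hu : ∀ x ∈ m.reg, CkAt 2 u x) : LocSol w (amb m u) (amb m (LM m u)) :=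
  locSol_of_LM m hu (fun _ hx => amb_F m u hx) fun _ hx => (amb_F m _ hx).symm

/-- local solutions are solutions on the surface -/
theorem LM_of_locSol {U g : E3 → ℝ} (h : LocSol w U g) (hx : x ∈ m.reg) :
    CkAt 2 (fun z => U (m.F z)) x ∧ LM m (fun z => U (m.F z)) x = g (m.F x) := by
  obtain ⟨a, a1, a2, a3⟩ := h _ (m.w_F hx)
  have h1 : ∀ᶠ z in 𝓝 x, a (m.F z) = U (m.F z) := by
    filter_upwards [(m.ckAt_F hx).continuousAt.tendsto.eventually a2, ev_reg m hx] with z h1 h2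
    exact h1 (m.w_F h2)
  refine ⟨CkAt.congr (X := fun z => a (m.F z)) (fun e he hxe => ?_) (h1.mono fun _ h => h.symm),
    by rw [LM_eq_stab m hx a1 h1, a3]⟩
  exact ContDiffAt.comp (g := a) (f := cX e m.F) _ (by rwa [cX_self _ hxe])
    (m.rimm.ck x hx e he hxe)

variable [RSm E2 M] [CompactSpace M] [MeasurableSpace M] [BorelSpace M]

theorem memLp_mu0 (G : E3 → ℝ) :
    MemLp (fun x => G (m.F x)) 2 m.mu0 ↔ MemLp G 2 (ga 2 w) := by
  have h := m.rimm
  have h1 : MemLp (fun x => G (m.F x)) 2 m.mu0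
      ↔ MemLp (fun x => G (m.F x)) 2 ((gam.comap (m.reg.domRestrict m.F)).map Subtype.val) := by
    refine ⟨fun a => ?_, fun a => a.smul_measure ENNReal.coe_ne_top⟩
    have := a.smul_measure (c := (cH 2 : ENNReal)) ENNReal.coe_ne_top
    rwa [Model.mu0, muX, ENNReal.smul_def, smul_smul, ← ENNReal.coe_mul,
      mul_inv_cancel₀ (cH_pos 2).ne', ENNReal.coe_one, one_smul] at this
  rw [h1, (MeasurableEmbedding.subtype_coe h.opn.measurableSet).memLp_map_measure_iff, ga,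
    ← m.image_reg.trans m.S_eq,
    ← gam_restrict (h.measurableSet_image h.opn.measurableSet Subset.rfl m.inj),
    ← range_domRestrict', ← (h.emb m.inj).map_comap, (h.emb m.inj).memLp_map_measure_iff]
  rfl

theorem memLp_amb (u : M → ℝ) : MemLp (amb m u) 2 (ga 2 w) ↔ MemLp u 2 m.mu0 := by
  rw [← memLp_mu0 m]
  exact memLp_congr_ae (m.ae_reg.mono fun x hx => amb_F m u hx)

theorem integral_ga_eq (G : E3 → ℝ) :
    ∫ p, G p ∂(ga 2 w) = cH 2 * ∫ x, G (m.F x) ∂m.mu0 := by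
  rw [ga, ← m.S_eq, ← m.integral_mu0, smul_eq_mul]

/-- continuous functions of polynomial growth are square integrable -/
theorem memLp_of_growth (hu : ContinuousOn u m.reg) {K : ℝ} {q : ℕ}
    (hK : ∀ x ∈ m.reg, |u x| ≤ K * (1 + ‖m.F x‖) ^ q) : MemLp u 2 m.mu0 := by
  have h1 := (memLp_mu0 m _).2 ((shr m).memLp_of_le (f := fun p => K * (1 + ‖p‖) ^ q) (K := |K|)
    (q := q) (Continuous.aestronglyMeasurable (by fun_prop)) fun p _ => by
      rw [abs_mul, abs_of_nonneg (a := (1 + ‖p‖) ^ q) (by positivity)])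
  have h2 : AEStronglyMeasurable u m.mu0 := by
    have := hu.aestronglyMeasurable (μ := m.mu0) m.isOpen_reg.measurableSet
    rwa [Measure.restrict_eq_self_of_ae_mem m.ae_reg] at this
  refine h1.of_le h2 ?_
  filter_upwards [m.ae_reg] with x hx using (hK x hx).trans (le_abs_self _)

/-- **Green's identity** on the parameter surface. -/
theorem green_M (hu : ∀ x ∈ m.reg, CkAt 2 u x) (hv : ∀ x ∈ m.reg, CkAt 2 v x)
    (u1 : MemLp u 2 m.mu0) (u2 : MemLp (LM m u) 2 m.mu0) (v1 : MemLp v 2 m.mu0)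
    (v2 : MemLp (LM m v) 2 m.mu0) :
    ∫ x, u x * LM m v x ∂m.mu0 = ∫ x, LM m u x * v x ∂m.mu0 := by
  have h := (shr m).green_loc (locSol_amb m hu) (locSol_amb m hv) ((memLp_amb m _).2 u1)
    ((memLp_amb m _).2 u2) ((memLp_amb m _).2 v1) ((memLp_amb m _).2 v2)
  rw [integral_ga_eq m, integral_ga_eq m, mul_right_inj' (cH_pos' 2).ne'] at h
  rw [← integral_congr_ae (m.ae_reg.mono fun x hx => ?_), h]
  · exact integral_congr_ae (m.ae_reg.mono fun x hx => by simp only [amb_F m _ hx])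
  · simp only [amb_F m _ hx]

/-- **The fields `inj`, `indep`, `nd`** from the linear theory on the parameter surface. -/
theorem co9_M {P Λ : Type*} [NormedAddCommGroup P] [NormedSpace ℝ P] [NormedAddCommGroup Λ]
    [NormedSpace ℝ Λ] [FiniteDimensional ℝ P] [FiniteDimensional ℝ Λ]
    (hd : finrank ℝ P = finrank ℝ Λ) {v : P →ₗ[ℝ] (E3 → ℝ)} {e : Λ →ₗ[ℝ] (E3 → ℝ)}
    (hv : ∀ b, MemLp (fun x => v b (m.F x)) 2 m.mu0)
    (he : ∀ l, MemLp (fun x => e l (m.F x)) 2 m.mu0)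
    (vel : ∀ b, ∃ l, ∀ x ∈ m.reg, CkAt 2 (fun z => v b (m.F z)) x ∧
      LM m (fun z => v b (m.F z)) x = e l (m.F x))
    (pair : ∀ b, (∀ l, ∫ x, v b (m.F x) * e l (m.F x) ∂m.mu0 = 0) → b = 0)
    (solv : ∀ g : E3 → ℝ, ContDiff ℝ ∞ g → HasCompactSupport g → ∃ (u : M → ℝ) (l : Λ),
      (∀ x ∈ m.reg, CkAt 2 u x ∧ LM m u x = g (m.F x) + e l (m.F x)) ∧ MemLp u 2 m.mu0) :
    (∀ b, (∀ x, w x = 0 → v b x = 0) → b = 0) ∧ (∀ l, (∀ x, w x = 0 → e l x = 0) → l = 0) ∧
    ∀ (u : E3 → ℝ) (l : Λ), MemLp u 2 (gaussArea 2 {x | w x = 0}) →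
      (∀ ζ : E3 → ℝ, ContDiff ℝ 2 ζ → HasCompactSupport ζ →
        ∫ x, u x * stab w ζ x ∂(gaussArea 2 {x | w x = 0})
          = ∫ x, e l x * ζ x ∂(gaussArea 2 {x | w x = 0})) →
      ∃ b, u =ᵐ[gaussArea 2 {x | w x = 0}] v b := by
  refine (shr m).co9 hd (fun b => (memLp_mu0 m _).1 (hv b)) (fun l => (memLp_mu0 m _).1 (he l))
    (fun b => ?_) (fun b hb => pair b fun l => ?_) fun g g1 g2 => ?_
  · obtain ⟨l, hl⟩ := vel b
    exact ⟨l, locSol_of_LM m (fun x hx => (hl x hx).1) (fun _ _ => rfl) fun x hx => (hl x hx).2⟩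
  · have := hb l
    rwa [integral_ga_eq m, mul_eq_zero_iff_left (cH_pos' 2).ne'] at this
  · obtain ⟨u, l, a, b⟩ := solv g g1 g2
    exact ⟨amb m u, l, locSol_of_LM m (fun x hx => (a x hx).1) (fun _ hx => amb_F m u hx)
      fun x hx => (a x hx).2, (memLp_amb m u).2 b⟩

end Vale.Agent.P218ND
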