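import Vale.Agent.P218ND.Cut

/-! Functions on the shrinker which solve the linearised equation locally. -/

open MeasureTheory Set Filter Topology Metric Module
open scoped ENNReal NNReal RealInnerProductSpace Manifold

namespace Vale.Agent.P218ND

set_option linter.unusedSectionVars false

open Vale.Agent.P214 (proj)
open Vale.Agent.P218.H63 (lap hessSq stab gaussArea contDiff_gradient inner_gradient)
open Vale.Agent.P218.H313 (tr tr_smul tr_comm)
open Vale.Agent.P218GA (IsTube hyp tr_proj_hyp proj_hyp mem_hyp)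

variable {E : Type*} [NormedAddCommGroup E] [InnerProductSpace ℝ E] [FiniteDimensional ℝ E]

/-- local `C²` extensions from a closed set can be glued -/
theorem exists_ext {A : Set E} {U : E → ℝ} (hA : IsClosed A)
    (h : ∀ p ∈ A, ∃ ζ : E → ℝ, ContDiffAt ℝ 2 ζ p ∧ ∀ᶠ x in 𝓝 p, x ∈ A → ζ x = U x) :
    ∃ ζ : E → ℝ, ContDiff ℝ 2 ζ ∧ ∀ x ∈ A, ζ x = U x := by
  have h1 := exists_contMDiffMap_forall_mem_convex_of_local (n := 2) 𝓘(ℝ, E)
    (t := fun x => {y : ℝ | x ∈ A → y = U x}) (fun x => ?_) fun x => ?_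
  · obtain ⟨g, hg⟩ := h1
    exact ⟨g, g.contMDiff.contDiff, hg⟩
  · intro a ha b hb s t _ _ hst hx
    rw [ha hx, hb hx, ← add_smul, hst, one_smul]
  · by_cases hx : x ∈ A
    · obtain ⟨ζ, h2, h3⟩ := h x hx
      refine ⟨_, (h2.eventually (by simp)).and h3, ζ, fun y hy => ?_, fun y hy => hy.2⟩
      exact hy.1.contMDiffAt.contMDiffWithinAt
    · exact ⟨Aᶜ, hA.isOpen_compl.mem_nhds hx, fun _ => 0, contMDiffOn_const,
        fun y hy h0 => absurd h0 hy⟩

lemma exists_glob {ζ : E → ℝ} {p : E} (h : ContDiffAt ℝ 2 ζ p) :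
    ∃ ζ' : E → ℝ, ContDiff ℝ 2 ζ' ∧ ζ' =ᶠ[𝓝 p] ζ := by
  obtain ⟨r, r0, hr⟩ := nhds_basis_closedBall.eventually_iff.1 (h.eventually (by simp))
  obtain ⟨ζ', h1, h2⟩ := exists_ext (U := ζ) (isClosed_closedBall (x := p) (ε := r))
    fun x hx => ⟨ζ, hr hx, Eventually.of_forall fun _ _ => rfl⟩
  refine ⟨ζ', h1, ?_⟩
  filter_upwards [closedBall_mem_nhds p r0] with x hx using h2 x hx

/-- the derivative along the zero set of a map vanishing on it -/
lemma fderiv_tangent {G : Type*} [NormedAddCommGroup G] [NormedSpace ℝ G] {w : E → ℝ} {p : E}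
    (hw : ContDiff ℝ 1 w) (hp : w p = 0) (h1 : ‖gradient w p‖ = 1) {F : E → G}
    (hF : DifferentiableAt ℝ F p) (h0 : ∀ᶠ x in 𝓝 p, w x = 0 → F x = 0) {τ : E}
    (hτ : ⟪gradient w p, τ⟫ = 0) : fderiv ℝ F p τ = 0 := by
  have := FiniteDimensional.complete ℝ E
  have hs : HasStrictFDerivAt w (fderiv ℝ w p) p := hw.contDiffAt.hasStrictFDerivAt one_ne_zero
  have hr : (fderiv ℝ w p).range = ⊤ := by
    rw [eq_top_iff]
    intro c _
    refine ⟨c • gradient w p, ?_⟩
    change fderiv ℝ w p (c • gradient w p) = c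
    rw [← inner_gradient, inner_smul_right, real_inner_self_eq_norm_sq, h1]
    ring
  have h2 := (hs.to_implicitFunction hr).hasFDerivAt
  have h3 := hs.implicitFunction_apply_image hr
  have h4 : ∀ᶠ y in 𝓝 (0 : (fderiv ℝ w p).ker), w (hs.implicitFunction w _ hr (w p) y) = 0 := by
    have t : Tendsto (fun y : (fderiv ℝ w p).ker => (w p, y)) (𝓝 0) (𝓝 (w p, 0)) :=
      (continuous_const.prodMk continuous_id).tendsto' _ _ rfl
    filter_upwards [t.eventually (hs.map_implicitFunction_eq hr)] with y hy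
    exact hy.trans hp
  have h5 : Tendsto (hs.implicitFunction w _ hr (w p)) (𝓝 0) (𝓝 p) := by
    have := h2.continuousAt.tendsto
    rwa [h3] at this
  have h6 : (F ∘ hs.implicitFunction w _ hr (w p)) =ᶠ[𝓝 0] fun _ => 0 := by
    filter_upwards [h4, h5.eventually h0] with y a b using b a
  have h7 : HasFDerivAt F (fderiv ℝ F p) (hs.implicitFunction w _ hr (w p) 0) := by
    rw [h3]; exact hF.hasFDerivAt
  have h8 := (h7.comp 0 h2).unique ((hasFDerivAt_const (0 : G) _).congr_of_eventuallyEq h6)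
  have h9 : τ ∈ (fderiv ℝ w p).ker := by
    change fderiv ℝ w p τ = 0
    rw [← inner_gradient, hτ]
  exact congrArg (fun L : (fderiv ℝ w p).ker →L[ℝ] G => L ⟨τ, h9⟩) h8

lemma inner_grad_tv {w : E → ℝ} {x : E} (hx : ‖gradient w x‖ = 1) (f : E → ℝ) :
    ⟪gradient w x, tv w f x⟫ = 0 := by
  rw [tv, inner_sub_right, inner_smul_right, real_inner_self_eq_norm_sq, hx, real_inner_comm]
  ring

lemma tv_eq_zero {w ψ : E → ℝ} {p : E} (hw : ContDiff ℝ 1 w) (hp : w p = 0)
    (h1 : ‖gradient w p‖ = 1) (hψ : DifferentiableAt ℝ ψ p)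
    (h0 : ∀ᶠ x in 𝓝 p, w x = 0 → ψ x = 0) : tv w ψ p = 0 := by
  have h2 := fderiv_tangent hw hp h1 hψ h0 (inner_grad_tv h1 ψ)
  rw [← inner_gradient] at h2
  rw [← inner_self_eq_zero (𝕜 := ℝ)]
  conv_lhs => rw [tv, inner_sub_left, inner_smul_left, ← tv, h2, inner_grad_tv h1]
  simp

lemma tr_proj_two {ν : E} (hν : ‖ν‖ = 1) (A : E →L[ℝ] E) :
    tr A - ⟪ν, A ν⟫ = tr ((proj (hyp ν)).comp (A.comp (proj (hyp ν)))) := by
  have e : (proj (hyp ν)).comp (proj (hyp ν)) = proj (hyp ν) := by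
    ext v
    exact P218.H313.proj_proj _ _
  rw [tr_comm, ContinuousLinearMap.comp_assoc, e, tr_comm, tr_proj_hyp hν]

variable [MeasurableSpace E] [BorelSpace E] {m : ℕ} {w : E → ℝ} {δ C : ℝ}

/-- `U` is, near every point of `{w = 0}`, the restriction of a `C²` function, and `L U = g` -/
def LocSol (w U g : E → ℝ) : Prop :=
  ∀ p, w p = 0 → ∃ ζ : E → ℝ, ContDiffAt ℝ 2 ζ p ∧ (∀ᶠ x in 𝓝 p, w x = 0 → ζ x = U x) ∧
    stab w ζ p = g p

namespace Shr

variable (h : Shr m w δ C)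
include h

/-- the stability operator depends only on the values on the shrinker -/
theorem stab_zero {ψ : E → ℝ} (hψ : ContDiff ℝ 2 ψ) {p : E} (hp : w p = 0)
    (h0 : ∀ᶠ x in 𝓝 p, w x = 0 → ψ x = 0) : stab w ψ p = 0 := by
  have hν := h.tube.unit p hp
  have dψ := hψ.differentiable two_ne_zero
  have h1 : ∀ᶠ x in 𝓝 p, w x = 0 → tv w ψ x = 0 := by
    filter_upwards [h0.eventually_nhds] with x hx h2
    exact tv_eq_zero h.tube.cd1 h2 (h.tube.unit x h2) (dψ x) hx
  have gψ := ((contDiff_gradient (n := 1) hψ (by norm_num)).differentiable one_ne_zero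
    p).hasFDerivAt
  have gw := (h.tube.cdg.differentiable one_ne_zero p).hasFDerivAt
  have d1 : HasFDerivAt (tv w ψ) _ p := gψ.sub ((gψ.inner ℝ gw).smul gw)
  set c := ⟪gradient ψ p, gradient w p⟫ with hc
  have e1 : (proj (hyp (gradient w p))).comp ((fderiv ℝ (gradient ψ) p).comp
      (proj (hyp (gradient w p)))) = c • (proj (hyp (gradient w p))).comp
        ((fderiv ℝ (gradient w) p).comp (proj (hyp (gradient w p)))) := by
    ext v
    have h3 : ⟪gradient w p, proj (hyp (gradient w p)) v⟫ = 0 :=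
      mem_hyp.1 (Submodule.starProjection_apply_mem _ v)
    have h4 := fderiv_tangent h.tube.cd1 hp hν d1.differentiableAt h1 h3
    rw [d1.fderiv] at h4
    simp only [sub_apply, add_apply, smul_apply, ContinuousLinearMap.smulRight_apply,
      sub_eq_zero] at h4
    have h5 : proj (hyp (gradient w p)) (gradient w p) = 0 := by
      simp [proj, proj_hyp hν, hν]
    simp only [ContinuousLinearMap.comp_apply, smul_apply, h4, map_add, map_smul, h5, smul_zero,
      add_zero, hc]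
  have e2 : gradient ψ p = c • gradient w p := sub_eq_zero.1 (h1.self_of_nhds hp)
  have e3 := tr_proj_two hν (fderiv ℝ (gradient ψ) p)
  rw [e1, tr_smul, ← tr_proj_two hν, h.tube.hess_grad (h.tube.lt_of_zero hp), inner_zero_right,
    ← lap_eq_tr, ← lap_eq_tr, h.eqn p hp, real_inner_comm] at e3
  rw [stab, h0.self_of_nhds hp, e3]
  conv_lhs => rw [e2, inner_smul_right]
  ring

theorem stab_eq_of {f g : E → ℝ} {p : E} (hf : ContDiffAt ℝ 2 f p) (hg : ContDiffAt ℝ 2 g p)
    (hp : w p = 0) (h0 : ∀ᶠ x in 𝓝 p, w x = 0 → f x = g x) : stab w f p = stab w g p := by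
  obtain ⟨f', f1, f2⟩ := exists_glob hf
  obtain ⟨g', g1, g2⟩ := exists_glob hg
  have h1 := h.stab_zero (f1.add ((contDiff_const (c := (-1 : ℝ))).mul g1)) hp (by
    filter_upwards [h0, f2, g2] with x a b c d
    rw [b, c, a d]; ring)
  rw [stab_add f1 ((contDiff_const (c := (-1 : ℝ))).mul g1), stab_cmul _ g1, stab_congr f2,
    stab_congr g2] at h1
  linarith

/-- a local solution is the restriction of a global `C²` function -/
theorem exists_global {U g : E → ℝ} (hU : LocSol w U g) : ∃ ζ : E → ℝ, ContDiff ℝ 2 ζ ∧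
    ∀ x, w x = 0 → ζ x = U x ∧ stab w ζ x = g x := by
  obtain ⟨ζ, h1, h2⟩ := exists_ext (A := {x | w x = 0}) (U := U)
    (isClosed_eq h.tube.smooth.continuous continuous_const)
    fun p hp => let ⟨ζ, a, b, _⟩ := hU p hp; ⟨ζ, a, b⟩
  refine ⟨ζ, h1, fun x hx => ⟨h2 x hx, ?_⟩⟩
  obtain ⟨ζ', a, b, c⟩ := hU x hx
  rw [← c]
  refine h.stab_eq_of h1.contDiffAt a hx ?_
  filter_upwards [b] with y hy h0
  rw [hy h0, h2 y h0]

/-- functions of polynomial growth on the shrinker are square integrable -/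
theorem memLp_of_le {f : E → ℝ} (hf : AEStronglyMeasurable f (ga m w)) {K : ℝ} {q : ℕ}
    (hK : ∀ x, w x = 0 → |f x| ≤ K * (1 + ‖x‖) ^ q) : MemLp f 2 (ga m w) := by
  have h1 : MemLp (fun x : E => (1 + ‖x‖) ^ q) 2 (ga m w) := by
    rw [memLp_two_iff_integrable_sq (Continuous.aestronglyMeasurable (by fun_prop))]
    simpa only [← pow_mul] using h.integrable_pow (q * 2)
  refine (h1.const_mul K).of_le hf ?_
  filter_upwards [h.ae_zero] with x hx
  exact (hK x hx).trans (le_abs_self _)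

theorem meas_of_loc {U g : E → ℝ} (hU : LocSol w U g) :
    AEStronglyMeasurable U (ga m w) ∧ AEStronglyMeasurable g (ga m w) := by
  obtain ⟨ζ, h1, h2⟩ := h.exists_global hU
  constructor
  · refine h1.continuous.aestronglyMeasurable.congr ?_
    filter_upwards [h.ae_zero] with x hx using (h2 x hx).1
  · refine (continuous_stab h.tube.smooth h1).aestronglyMeasurable.congr ?_
    filter_upwards [h.ae_zero] with x hx using (h2 x hx).2

/-- testing a weak solution with a local solution -/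
theorem test_loc {u f U g : E → ℝ} (hu : MemLp u 2 (ga m w)) (hf : MemLp f 2 (ga m w))
    (hweak : ∀ ζ : E → ℝ, ContDiff ℝ 2 ζ → HasCompactSupport ζ →
      ∫ x, u x * stab w ζ x ∂(ga m w) = ∫ x, f x * ζ x ∂(ga m w))
    (hU : LocSol w U g) (h1 : MemLp U 2 (ga m w)) (h2 : MemLp g 2 (ga m w)) :
    ∫ x, u x * g x ∂(ga m w) = ∫ x, f x * U x ∂(ga m w) := by
  obtain ⟨ζ, a, b⟩ := h.exists_global hU
  have e1 : ζ =ᵐ[ga m w] U := by
    filter_upwards [h.ae_zero] with x hx using (b x hx).1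
  have e2 : stab w ζ =ᵐ[ga m w] g := by
    filter_upwards [h.ae_zero] with x hx using (b x hx).2
  have e3 := h.test_ext hu hf hweak a ((memLp_congr_ae e1).2 h1) ((memLp_congr_ae e2).2 h2)
  calc _ = ∫ x, u x * stab w ζ x ∂(ga m w) := by
        refine integral_congr_ae ?_
        filter_upwards [e2] with x hx
        rw [hx]
    _ = _ := by
        rw [e3]
        refine integral_congr_ae ?_
        filter_upwards [e1] with x hx
        rw [hx]

/-- a local solution is a weak solution -/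
theorem weak_of_loc {U g : E → ℝ} (hU : LocSol w U g) {ζ : E → ℝ} (hζ : ContDiff ℝ 2 ζ)
    (hc : HasCompactSupport ζ) :
    ∫ x, U x * stab w ζ x ∂(ga m w) = ∫ x, g x * ζ x ∂(ga m w) := by
  obtain ⟨V, a, b⟩ := h.exists_global hU
  calc _ = ∫ x, V x * stab w ζ x ∂(ga m w) := by
        refine integral_congr_ae ?_
        filter_upwards [h.ae_zero] with x hx
        rw [(b x hx).1]
    _ = _ := by
        rw [h.green_cc a hζ hc]
        refine integral_congr_ae ?_
        filter_upwards [h.ae_zero] with x hx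
        rw [(b x hx).2]

/-- **Green's identity** for square integrable local solutions. -/
theorem green_loc {U f V g : E → ℝ} (hU : LocSol w U f) (hV : LocSol w V g)
    (hU1 : MemLp U 2 (ga m w)) (hU2 : MemLp f 2 (ga m w))
    (hV1 : MemLp V 2 (ga m w)) (hV2 : MemLp g 2 (ga m w)) :
    ∫ x, U x * g x ∂(ga m w) = ∫ x, f x * V x ∂(ga m w) :=
  h.test_loc hU1 hU2 (fun _ hζ hc => h.weak_of_loc hU hζ hc) hV hV1 hV2

end Shr

lemma LocSol.add {U f V g : E → ℝ} (hU : LocSol w U f) (hV : LocSol w V g) :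
    LocSol w (fun x => U x + V x) fun x => f x + g x := by
  intro p hp
  obtain ⟨a, a1, a2, a3⟩ := hU p hp
  obtain ⟨b, b1, b2, b3⟩ := hV p hp
  obtain ⟨a', a4, a5⟩ := exists_glob a1
  obtain ⟨b', b4, b5⟩ := exists_glob b1
  refine ⟨fun x => a' x + b' x, (a4.add b4).contDiffAt, ?_, ?_⟩
  · filter_upwards [a2, b2, a5, b5] with x h1 h2 h3 h4 h0
    rw [h3, h4, h1 h0, h2 h0]
  · rw [stab_add a4 b4, stab_congr a5, stab_congr b5, a3, b3]

lemma LocSol.cmul {U f : E → ℝ} (hU : LocSol w U f) (c : ℝ) :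
    LocSol w (fun x => c * U x) fun x => c * f x := by
  intro p hp
  obtain ⟨a, a1, a2, a3⟩ := hU p hp
  obtain ⟨a', a4, a5⟩ := exists_glob a1
  refine ⟨fun x => c * a' x, (contDiff_const.mul a4).contDiffAt, ?_, ?_⟩
  · filter_upwards [a2, a5] with x h1 h3 h0
    rw [h3, h1 h0]
  · rw [stab_cmul c a4, stab_congr a5, a3]

lemma LocSol.congr {U f V g : E → ℝ} (hU : LocSol w U f) (h1 : ∀ x, w x = 0 → U x = V x)
    (h2 : ∀ x, w x = 0 → f x = g x) : LocSol w V g := by
  intro p hp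
  obtain ⟨a, a1, a2, a3⟩ := hU p hp
  refine ⟨a, a1, ?_, a3.trans (h2 p hp)⟩
  filter_upwards [a2] with x h3 h0
  rw [h3 h0, h1 x h0]

lemma locSol_of_contDiff {U : E → ℝ} (hU : ContDiff ℝ 2 U) : LocSol w U (stab w U) :=
  fun _ _ => ⟨U, hU.contDiffAt, Eventually.of_forall fun _ _ => rfl, rfl⟩

end Vale.Agent.P218ND
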