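import Vale.Agent.P218ND.Brg3
import Vale.Agent.P218CO.Jet2

/-! The bridge for complex vector fields, in the language of jets. -/

open MeasureTheory Set Filter Topology Complex
open scoped RealInnerProductSpace ContDiff Matrix

namespace Vale.Agent.P218ND

set_option linter.unusedSectionVars false

open Vale.Agent.P218VA Vale.Agent.P218CO
open Vale.Agent.P218GA (E3 cx crs grm Model cx_crs cx_gram cx_dot crs_par inner_grad_pd PPF_zero
  grm_nonneg sq_inner_crs)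
open Vale.Agent.P272.K.LIN

/-- the linearised shrinker operator on jets -/
noncomputable def dPPj (j k : J2 C3) : ℂ :=
  dPP j.1.1 j.1.2.1 j.1.2.2 j.2.1 j.2.2.1 j.2.2.2 k.1.1 k.1.2.1 k.1.2.2 k.2.1 k.2.2.1 k.2.2.2

lemma dPPj_add (j k k' : J2 C3) : dPPj j (k + k') = dPPj j k + dPPj j k' := dPP_add ..

lemma dPPj_smul (j k : J2 C3) (c : ℂ) : dPPj j (c • k) = c * dPPj j k := dPP_smul ..

section curve
variable {𝕜 : Type*} [NontriviallyNormedField 𝕜] [NormedAlgebra 𝕜 ℂ] {t : 𝕜}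
variable {j : 𝕜 → J2 C3} {k : J2 C3}

lemma hasDerivAt_fst' {A B : Type*} [NormedAddCommGroup A] [NormedSpace 𝕜 A]
    [NormedAddCommGroup B] [NormedSpace 𝕜 B] {f : 𝕜 → A × B} {f' : A × B}
    (h : HasDerivAt f f' t) : HasDerivAt (fun s => (f s).1) f'.1 t :=
  (ContinuousLinearMap.fst 𝕜 A B).hasFDerivAt.comp_hasDerivAt t h

lemma hasDerivAt_snd' {A B : Type*} [NormedAddCommGroup A] [NormedSpace 𝕜 A]
    [NormedAddCommGroup B] [NormedSpace 𝕜 B] {f : 𝕜 → A × B} {f' : A × B}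
    (h : HasDerivAt f f' t) : HasDerivAt (fun s => (f s).2) f'.2 t :=
  (ContinuousLinearMap.snd 𝕜 A B).hasFDerivAt.comp_hasDerivAt t h

theorem hasDerivAt_PPj (h : HasDerivAt j k t) :
    HasDerivAt (fun s => PPj (j s)) (dPPj (j t) k) t :=
  hasDerivAt_PP (hasDerivAt_fst' (hasDerivAt_fst' h))
    (hasDerivAt_fst' (hasDerivAt_snd' (hasDerivAt_fst' h)))
    (hasDerivAt_snd' (hasDerivAt_snd' (hasDerivAt_fst' h))) (hasDerivAt_fst' (hasDerivAt_snd' h))
    (hasDerivAt_fst' (hasDerivAt_snd' (hasDerivAt_snd' h)))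
    (hasDerivAt_snd' (hasDerivAt_snd' (hasDerivAt_snd' h)))

theorem hasDerivAt_mul_PPj {μ : 𝕜 → ℂ} {μ' : ℂ} (hμ : HasDerivAt μ μ' t) (h : HasDerivAt j k t)
    (h0 : PPj (j t) = 0) : HasDerivAt (fun s => μ s * PPj (j s)) (μ t * dPPj (j t) k) t := by
  refine (hμ.mul (hasDerivAt_PPj h)).congr_deriv ?_
  rw [h0, mul_zero, zero_add]

theorem hasDerivAt_ELj {W : 𝕜 → C3} {W' : C3} (h : HasDerivAt j k t) (hW : HasDerivAt W W' t)
    (hg : gramj (j t) ∈ slitPlane) (h0 : PPj (j t) = 0) :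
    HasDerivAt (fun s => ELj (j s) (W s)) (-(wt (j t).1.1 * dPPj (j t) k
      / ar (j t).1.2.1 (j t).1.2.2 ^ 3 * ((j t).1.2.1 ⨯₃ (j t).1.2.2 ⬝ᵥ W t))) t :=
  hasDerivAt_EL (hasDerivAt_fst' (hasDerivAt_fst' h))
    (hasDerivAt_fst' (hasDerivAt_snd' (hasDerivAt_fst' h)))
    (hasDerivAt_snd' (hasDerivAt_snd' (hasDerivAt_fst' h))) (hasDerivAt_fst' (hasDerivAt_snd' h))
    (hasDerivAt_fst' (hasDerivAt_snd' (hasDerivAt_snd' h)))
    (hasDerivAt_snd' (hasDerivAt_snd' (hasDerivAt_snd' h))) hW hg h0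

end curve

lemma differentiable_PPj : Differentiable ℂ PPj := by
  unfold PPj PP gram
  simp only [dot3, cross0, cross1, cross2]
  fun_prop

lemma fderiv_PPj (j k : J2 C3) : fderiv ℂ PPj j k = dPPj j k := by
  have h1 : HasDerivAt (fun s : ℂ => j + s • k) k 0 := by
    simpa using ((hasDerivAt_id (0 : ℂ)).smul_const k).const_add j
  have h2 := hasDerivAt_PPj h1
  have h3 := (differentiable_PPj (j + (0 : ℂ) • k)).hasFDerivAt.comp_hasDerivAt 0 h1
  have h4 := h3.unique h2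
  simpa using h4

section param
variable {D : Type*} [NormedAddCommGroup D] [NormedSpace ℝ D] {y : D} {d1 d2 : D}

lemma dPPj_split {X : D → E3} {V : D → C3} (hX : ContDiffAt ℝ 2 X y) (hV : ContDiffAt ℝ 2 V y) :
    dPPj (cj d1 d2 (fun z => cx (X z)) y) (cj d1 d2 V y)
      = (dPPrF d1 d2 X (fun z => reV (V z)) y : ℝ)
        + I * (dPPrF d1 d2 X (fun z => imV (V z)) y : ℝ) := by
  have hv := hV.differentiableAt two_ne_zero
  rw [cj_clm cx hX, dPPrF, dPPrF, pd_clm reV hv, pd_clm reV hv, pd_clm imV hv, pd_clm imV hv,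
    pd_pd_clm reV hV, pd_pd_clm reV hV, pd_pd_clm reV hV, pd_pd_clm imV hV, pd_pd_clm imV hV,
    pd_pd_clm imV hV]
  exact dPP_split ..

variable {S : Set E3} {w : E3 → ℝ} {δ C : ℝ} {ι κ M : Type} [TopologicalSpace M]
  [ChartedSpace E2 M] (m : Model S w δ C ι κ M)

/-- the stability operator acting on complex functions -/
noncomputable def LMc (u : M → ℂ) (x : M) : ℂ :=
  (LM m (fun z => (u z).re) x : ℝ) + I * (LM m (fun z => (u z).im) x : ℝ)

lemma LMc_re (u : M → ℂ) (x : M) : (LMc m u x).re = LM m (fun z => (u z).re) x := by simp [LMc]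

lemma LMc_im (u : M → ℂ) (x : M) : (LMc m u x).im = LM m (fun z => (u z).im) x := by simp [LMc]

lemma ckAt_re {u : M → ℂ} {x : M} {n : WithTop ℕ∞} (h : CkAt n u x) :
    CkAt n (fun z => (u z).re) x :=
  fun e he hx => Complex.reCLM.contDiff.contDiffAt.comp (e x) (h e he hx)

lemma ckAt_im {u : M → ℂ} {x : M} {n : WithTop ℕ∞} (h : CkAt n u x) :
    CkAt n (fun z => (u z).im) x :=
  fun e he hx => Complex.imCLM.contDiff.contDiffAt.comp (e x) (h e he hx)

variable [Finite ι] [Finite κ] [T2Space M] {Y : D → M} {u : M → ℂ} {V : D → C3}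

lemma LMc_ofReal {u : M → ℝ} {x : M} (hx : x ∈ m.reg) :
    LMc m (fun z => (u z : ℂ)) x = (LM m u x : ℝ) := by
  have h := LM_cmul m hx 0 (u := fun _ => 0) fun _ _ _ => contDiffAt_const
  simp only [zero_mul] at h
  simp [LMc, h]

/-- **The bridge** for complex vector fields: `u` is the normal part of `V`. -/
theorem dPPj_param (hy : Y y ∈ m.reg) (hY : ContinuousAt Y y)
    (hX : ContDiffAt ℝ 2 (fun z => m.F (Y z)) y) (hu : CkAt 2 u (Y y))
    (hV : ContDiffAt ℝ 2 V y) (huV : ∀ᶠ z in 𝓝 y, u (Y z) = cx (m.nu (Y z)) ⬝ᵥ V z)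
    (hg : grm (pd (fun z => m.F (Y z)) d1 y) (pd (fun z => m.F (Y z)) d2 y) ≠ 0) :
    (⟪crs (pd (fun z => m.F (Y z)) d1 y) (pd (fun z => m.F (Y z)) d2 y), m.nu (Y y)⟫ : ℝ)
        * dPPj (cj d1 d2 (fun z => cx (m.F (Y z))) y) (cj d1 d2 V y)
      = (grm (pd (fun z => m.F (Y z)) d1 y) (pd (fun z => m.F (Y z)) d2 y) : ℝ) ^ 2
        * LMc m u (Y y) := by
  have h1 := dPP_param m hy hY hX (ckAt_re hu) (reV.contDiff.contDiffAt.comp y hV)
    (huV.mono fun z hz => by rw [hz, re_dot]; rfl) hg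
  have h2 := dPP_param m hy hY hX (ckAt_im hu) (imV.contDiff.contDiffAt.comp y hV)
    (huV.mono fun z hz => by rw [hz, im_dot]; rfl) hg
  have h3 := congrArg (fun r : ℝ => (r : ℂ)) h1
  have h4 := congrArg (fun r : ℝ => (r : ℂ)) h2
  simp only [Function.comp_def] at h3 h4
  push_cast at h3 h4
  rw [dPPj_split hX hV, LMc]
  linear_combination h3 + I * h4

lemma PPj_param (hy : Y y ∈ m.reg) (hY : ContinuousAt Y y)
    (hX : ContDiffAt ℝ 2 (fun z => m.F (Y z)) y) :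
    PPj (cj d1 d2 (fun z => cx (m.F (Y z))) y) = 0 :=
  PPF_zero m.shr hX ((hY.tendsto.eventually (ev_reg m hy)).mono fun _ hz => m.F_mem hz) d1 d2

/-- the linearisation of the Euler-Lagrange density at the shrinker -/
theorem hasDerivAt_ELj_param {𝕜 : Type*} [NontriviallyNormedField 𝕜] [NormedAlgebra 𝕜 ℂ] {t : 𝕜}
    {j : 𝕜 → J2 C3} {W : 𝕜 → C3} {W' : C3} (hy : Y y ∈ m.reg) (hY : ContinuousAt Y y)
    (hX : ContDiffAt ℝ 2 (fun z => m.F (Y z)) y) (hu : CkAt 2 u (Y y))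
    (hV : ContDiffAt ℝ 2 V y) (huV : ∀ᶠ z in 𝓝 y, u (Y z) = cx (m.nu (Y z)) ⬝ᵥ V z)
    (hg : grm (pd (fun z => m.F (Y z)) d1 y) (pd (fun z => m.F (Y z)) d2 y) ≠ 0)
    (hj : HasDerivAt j (cj d1 d2 V y) t) (hj0 : j t = cj d1 d2 (fun z => cx (m.F (Y z))) y)
    (hW : HasDerivAt W W' t) :
    HasDerivAt (fun s => ELj (j s) (W s)) (-(LagF d1 d2 (fun z => cx (m.F (Y z))) y
      * LMc m u (Y y) * (cx (m.nu (Y y)) ⬝ᵥ W t))) t := by
  have hd := hX.differentiableAt two_ne_zero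
  have h0 := (hY.tendsto.eventually (ev_reg m hy)).mono fun _ hz => m.w_F hz
  have ha := inner_grad_pd (m.tube.cd1.differentiable one_ne_zero _) hd h0 d1
  have hb := inner_grad_pd (m.tube.cd1.differentiable one_ne_zero _) hd h0 d2
  have hn := congrArg cx (crs_par (m.norm_nu hy) ha hb)
  have h1 := dPPj_param m hy hY hX hu hV huV hg
  have e1 : (j t).1.2.1 = cx (pd (fun z => m.F (Y z)) d1 y) := by rw [hj0]; exact pd_clm cx hd d1
  have e2 : (j t).1.2.2 = cx (pd (fun z => m.F (Y z)) d2 y) := by rw [hj0]; exact pd_clm cx hd d2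
  have e3 : gramj (j t)
      = (grm (pd (fun z => m.F (Y z)) d1 y) (pd (fun z => m.F (Y z)) d2 y) : ℝ) := by
    rw [gramj, e1, e2, cx_gram]
  have hs : gramj (j t) ∈ slitPlane := by
    rw [e3]
    exact Complex.ofReal_mem_slitPlane.2 (lt_of_le_of_ne (grm_nonneg _ _) hg.symm)
  refine (hasDerivAt_ELj hj hW hs (hj0 ▸ PPj_param m hy hY hX)).congr_deriv ?_
  have e4 : LagF d1 d2 (fun z => cx (m.F (Y z))) y
      = wt (j t).1.1 * ar (j t).1.2.1 (j t).1.2.2 := by rw [hj0]; rfl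
  have e5 := ar_sq (j t).1.2.1 (j t).1.2.2
  have e6 : ar (j t).1.2.1 (j t).1.2.2 ≠ 0 := ar_ne' hs
  rw [← gramj, e3] at e5
  rw [map_smul, cx_crs, ← e1, ← e2] at hn
  rw [← hj0, ← e5] at h1
  rw [e4, hn, smul_dotProduct, Complex.real_smul]
  field_simp
  linear_combination (-(wt (j t).1.1 * (cx (m.nu (Y y)) ⬝ᵥ W t))) * h1

end param

variable {S : Set E3} {w : E3 → ℝ} {δ C : ℝ} {ι κ M : Type} [TopologicalSpace M]
  [ChartedSpace E2 M] (m : Model S w δ C ι κ M) [Finite ι] [Finite κ] [T2Space M]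
  {x : M} {u v : M → ℂ}

lemma LMc_congr (h : u =ᶠ[𝓝 x] v) : LMc m u x = LMc m v x := by
  rw [LMc, LMc, LM_congr m (u := fun z => (u z).re) (v := fun z => (v z).re)
    (h.mono fun z hz => congrArg re hz), LM_congr m (u := fun z => (u z).im) (v := fun z => (v z).im)
    (h.mono fun z hz => congrArg im hz)]

lemma LMc_add (hx : x ∈ m.reg) (hu : CkAt 2 u x) (hv : CkAt 2 v x) :
    LMc m (fun z => u z + v z) x = LMc m u x + LMc m v x := by
  simp only [LMc, add_re, add_im, LM_add m hx (ckAt_re hu) (ckAt_re hv),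
    LM_add m hx (ckAt_im hu) (ckAt_im hv)]
  push_cast
  ring

lemma ckAt_cmul {u : M → ℝ} {n : WithTop ℕ∞} (c : ℝ) (h : CkAt n u x) :
    CkAt n (fun z => c * u z) x := fun e he hx => contDiffAt_const.mul (h e he hx)

lemma LMc_cmul (hx : x ∈ m.reg) (c : ℂ) (hu : CkAt 2 u x) :
    LMc m (fun z => c * u z) x = c * LMc m u x := by
  have e1 : (fun z => (c * u z).re) = fun z => c.re * (u z).re + -c.im * (u z).im := by
    ext z; simp; ring
  have e2 : (fun z => (c * u z).im) = fun z => c.re * (u z).im + c.im * (u z).re := by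
    ext z; simp
  rw [LMc, e1, e2, LM_add m hx (ckAt_cmul _ (ckAt_re hu)) (ckAt_cmul _ (ckAt_im hu)),
    LM_add m hx (ckAt_cmul _ (ckAt_im hu)) (ckAt_cmul _ (ckAt_re hu)),
    LM_cmul m hx _ (ckAt_re hu), LM_cmul m hx _ (ckAt_im hu), LM_cmul m hx _ (ckAt_re hu),
    LM_cmul m hx _ (ckAt_im hu), LMc]
  apply Complex.ext
  · simp; ring
  · simp

/-- the linearisation of the Euler-Lagrange density in a chart of the atlas -/
theorem hasDerivAt_ELj_chart {𝕜 : Type*} [NontriviallyNormedField 𝕜] [NormedAlgebra 𝕜 ℂ] {t : 𝕜}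
    {j : 𝕜 → J2 C3} {W : 𝕜 → C3} {W' : C3} {e : OpenPartialHomeomorph M E2}
    (he : e ∈ atlas E2 M) (hx : x ∈ m.reg) (hxe : x ∈ e.source) {V : M → C3} (hV : CkAt 2 V x)
    (huV : ∀ᶠ z in 𝓝 x, u z = cx (m.nu z) ⬝ᵥ V z)
    (hj : HasDerivAt j (cj u1 u2 (cX e V) (e x)) t)
    (hj0 : j t = cj u1 u2 (cX e fun z => cx (m.F z)) (e x)) (hW : HasDerivAt W W' t) :
    HasDerivAt (fun s => ELj (j s) (W s)) (-(LagF u1 u2 (cX e fun z => cx (m.F z)) (e x)
      * LMc m u x * (cx (m.nu x) ⬝ᵥ W t))) t := by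
  have e0 := e.left_inv hxe
  have hu : CkAt 2 u x := by
    refine CkAt.congr (X := fun z => cx (m.nu z) ⬝ᵥ V z) (fun e' he' hx' => ?_) huV
    have h1 : ContDiffAt ℝ 2 (fun y => cx (cX e' m.nu y)) (e' x) :=
      cx.contDiff.contDiffAt.comp _ (((m.ckAt_nu hx).of_le two_le_inf) e' he' hx')
    have h2 := hV e' he' hx'
    have h3 := contDiffAt_pi.1 h1
    have h4 := contDiffAt_pi.1 h2
    have e1 : cX e' (fun z => cx (m.nu z) ⬝ᵥ V z) = fun y => cx (cX e' m.nu y) 0 * cX e' V y 0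
        + cx (cX e' m.nu y) 1 * cX e' V y 1 + cx (cX e' m.nu y) 2 * cX e' V y 2 :=
      funext fun y => dot3 _ _
    rw [e1]
    exact (((h3 0).mul (h4 0)).add ((h3 1).mul (h4 1))).add ((h3 2).mul (h4 2))
  have := hasDerivAt_ELj_param m (Y := e.symm) (y := e x) (u := u) (V := cX e V) (d1 := u1)
    (d2 := u2) (by rwa [e0]) (e.symm.continuousAt (e.map_source hxe)) (m.rimm.ck x hx e he hxe)
    (by rwa [e0]) (hV e he hxe) ((P218VA.tendsto_symm hxe).eventually huV)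
    (grm_chart m he hx hxe).ne' hj hj0 hW
  rwa [e0] at this

variable [RSm E2 M] [CompactSpace M] [MeasurableSpace M] [BorelSpace M]

lemma memLp_re {μ : Measure M} (h : MemLp u 2 μ) : MemLp (fun z => (u z).re) 2 μ :=
  Complex.reCLM.comp_memLp' h

lemma memLp_im {μ : Measure M} (h : MemLp u 2 μ) : MemLp (fun z => (u z).im) 2 μ :=
  Complex.imCLM.comp_memLp' h

/-- **Green's identity** for a complex and a real function -/
theorem green_Mc {v : M → ℝ} (hu : ∀ x ∈ m.reg, CkAt 2 u x) (hv : ∀ x ∈ m.reg, CkAt 2 v x)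
    (u1 : MemLp u 2 m.mu0) (u2 : MemLp (LMc m u) 2 m.mu0) (v1 : MemLp v 2 m.mu0)
    (v2 : MemLp (LM m v) 2 m.mu0) :
    ∫ x, u x * (LM m v x : ℝ) ∂m.mu0 = ∫ x, LMc m u x * (v x : ℝ) ∂m.mu0 := by
  have a2 : MemLp (LM m fun z => (u z).re) 2 m.mu0 := by
    simpa only [LMc_re] using memLp_re u2
  have b2 : MemLp (LM m fun z => (u z).im) 2 m.mu0 := by
    simpa only [LMc_im] using memLp_im u2
  have h1 := green_M m (fun x hx => ckAt_re (hu x hx)) hv (memLp_re u1) a2 v1 v2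
  have h2 := green_M m (fun x hx => ckAt_im (hu x hx)) hv (memLp_im u1) b2 v1 v2
  have i1 : Integrable (fun x => u x * (LM m v x : ℝ)) m.mu0 :=
    u1.integrable_mul (Complex.ofRealCLM.comp_memLp' v2)
  have i2 : Integrable (fun x => LMc m u x * (v x : ℝ)) m.mu0 :=
    u2.integrable_mul (Complex.ofRealCLM.comp_memLp' v1)
  apply Complex.ext
  · have e1 := integral_re i1
    have e2 := integral_re i2
    simp only [RCLike.re_to_complex, mul_re, ofReal_re, ofReal_im, mul_zero, sub_zero,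
      LMc_re] at e1 e2
    rw [← e1, ← e2, h1]
  · have e1 := integral_im i1
    have e2 := integral_im i2
    simp only [RCLike.im_to_complex, mul_im, ofReal_re, ofReal_im, mul_zero, zero_add,
      LMc_im] at e1 e2
    rw [← e1, ← e2, h2]

end Vale.Agent.P218ND
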