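import Vale.Agent.P218GA.Chart2

/-! The linearisation of the shrinker operator in jets. -/

open scoped Matrix RealInnerProductSpace
open Complex

namespace Vale.Agent.P218ND

open Vale.Agent.P218VA
open Vale.Agent.P218GA (E3 cx crs grm PPr cx_dot cx_crs cx_gram inner3)

/-- the derivative of `PP` in the direction of the jet `(V, V1, V2, V11, V12, V22)` -/
noncomputable def dPP (X a b aa ab bb V V1 V2 V11 V12 V22 : C3) : ℂ :=
  2 * (b ⬝ᵥ V2) * (aa ⬝ᵥ a ⨯₃ b) + (b ⬝ᵥ b) * (V11 ⬝ᵥ a ⨯₃ b + aa ⬝ᵥ (V1 ⨯₃ b + a ⨯₃ V2))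
    - 2 * (V1 ⬝ᵥ b + a ⬝ᵥ V2) * (ab ⬝ᵥ a ⨯₃ b)
    - 2 * (a ⬝ᵥ b) * (V12 ⬝ᵥ a ⨯₃ b + ab ⬝ᵥ (V1 ⨯₃ b + a ⨯₃ V2))
    + 2 * (a ⬝ᵥ V1) * (bb ⬝ᵥ a ⨯₃ b) + (a ⬝ᵥ a) * (V22 ⬝ᵥ a ⨯₃ b + bb ⬝ᵥ (V1 ⨯₃ b + a ⨯₃ V2))
    + (mm1 a b ⬝ᵥ V1 + mm2 a b ⬝ᵥ V2) * (X ⬝ᵥ a ⨯₃ b)
    + gram a b * (V ⬝ᵥ a ⨯₃ b + X ⬝ᵥ (V1 ⨯₃ b + a ⨯₃ V2)) / 2

lemma dPP_add (X a b aa ab bb V V1 V2 V11 V12 V22 U U1 U2 U11 U12 U22 : C3) :
    dPP X a b aa ab bb (V + U) (V1 + U1) (V2 + U2) (V11 + U11) (V12 + U12) (V22 + U22)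
      = dPP X a b aa ab bb V V1 V2 V11 V12 V22 + dPP X a b aa ab bb U U1 U2 U11 U12 U22 := by
  simp only [dPP, map_add, LinearMap.add_apply, dotProduct_add, add_dotProduct]
  ring

lemma dPP_smul (X a b aa ab bb V V1 V2 V11 V12 V22 : C3) (c : ℂ) :
    dPP X a b aa ab bb (c • V) (c • V1) (c • V2) (c • V11) (c • V12) (c • V22)
      = c * dPP X a b aa ab bb V V1 V2 V11 V12 V22 := by
  simp only [dPP, map_smul, LinearMap.smul_apply, dotProduct_add, dotProduct_smul,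
    smul_dotProduct, smul_eq_mul]
  ring

section curve
variable {𝕜 : Type*} [NontriviallyNormedField 𝕜] [NormedAlgebra 𝕜 ℂ] {t : 𝕜}
variable {X a b aa ab bb W : 𝕜 → C3} {V V1 V2 V11 V12 V22 W' : C3}

theorem hasDerivAt_PP (hX : HasDerivAt X V t) (ha : HasDerivAt a V1 t) (hb : HasDerivAt b V2 t)
    (haa : HasDerivAt aa V11 t) (hab : HasDerivAt ab V12 t) (hbb : HasDerivAt bb V22 t) :
    HasDerivAt (fun s => PP (X s) (a s) (b s) (aa s) (ab s) (bb s))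
      (dPP (X t) (a t) (b t) (aa t) (ab t) (bb t) V V1 V2 V11 V12 V22) t := by
  have hn := hasDerivAt_cross ha hb
  have := ((((hasDerivAt_dot hb hb).mul (hasDerivAt_dot haa hn)).sub
    (((hasDerivAt_dot ha hb).const_mul 2).mul (hasDerivAt_dot hab hn))).add
    ((hasDerivAt_dot ha ha).mul (hasDerivAt_dot hbb hn))).add
    (((hasDerivAt_gram ha hb).mul (hasDerivAt_dot hX hn)).div_const 2)
  refine HasDerivAt.congr_deriv this ?_
  rw [dPP, dotProduct_comm V2 (b t), dotProduct_comm V1 (a t)]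
  ring

/-- the linearisation of any multiple of the shrinker operator at a solution -/
theorem hasDerivAt_mul_PP {μ : 𝕜 → ℂ} {μ' : ℂ} (hμ : HasDerivAt μ μ' t)
    (hX : HasDerivAt X V t) (ha : HasDerivAt a V1 t) (hb : HasDerivAt b V2 t)
    (haa : HasDerivAt aa V11 t) (hab : HasDerivAt ab V12 t) (hbb : HasDerivAt bb V22 t)
    (h0 : PP (X t) (a t) (b t) (aa t) (ab t) (bb t) = 0) :
    HasDerivAt (fun s => μ s * PP (X s) (a s) (b s) (aa s) (ab s) (bb s))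
      (μ t * dPP (X t) (a t) (b t) (aa t) (ab t) (bb t) V V1 V2 V11 V12 V22) t := by
  refine (hμ.mul (hasDerivAt_PP hX ha hb haa hab hbb)).congr_deriv ?_
  rw [h0, mul_zero, zero_add]

/-- the linearisation of the Euler-Lagrange density at a solution -/
theorem hasDerivAt_EL (hX : HasDerivAt X V t) (ha : HasDerivAt a V1 t) (hb : HasDerivAt b V2 t)
    (haa : HasDerivAt aa V11 t) (hab : HasDerivAt ab V12 t) (hbb : HasDerivAt bb V22 t)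
    (hW : HasDerivAt W W' t) (hg : gram (a t) (b t) ∈ slitPlane)
    (h0 : PP (X t) (a t) (b t) (aa t) (ab t) (bb t) = 0) :
    HasDerivAt (fun s => EL (X s) (a s) (b s) (aa s) (ab s) (bb s) (W s))
      (-(wt (X t) * dPP (X t) (a t) (b t) (aa t) (ab t) (bb t) V V1 V2 V11 V12 V22
        / ar (a t) (b t) ^ 3 * (a t ⨯₃ b t ⬝ᵥ W t))) t := by
  have h1 := (((hasDerivAt_wt hX).div ((hasDerivAt_ar ha hb hg).pow 3)
    (pow_ne_zero 3 (ar_ne' hg))).mul (hasDerivAt_dot (hasDerivAt_cross ha hb) hW)).neg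
  have h2 := hasDerivAt_mul_PP h1 hX ha hb haa hab hbb h0
  have e : (fun s => EL (X s) (a s) (b s) (aa s) (ab s) (bb s) (W s)) = fun s =>
      -(wt (X s) / ar (a s) (b s) ^ 3 * (a s ⨯₃ b s ⬝ᵥ W s))
        * PP (X s) (a s) (b s) (aa s) (ab s) (bb s) := by
    ext s; rw [EL]; ring
  rw [e]
  refine HasDerivAt.congr_deriv h2 ?_
  simp only [Pi.neg_apply, Pi.mul_apply, Pi.div_apply, Pi.pow_apply]
  ring

end curve

/-- the first momentum vector -/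
noncomputable def mr1 (a b : E3) : E3 := ⟪b, b⟫ • a - ⟪a, b⟫ • b

/-- the second momentum vector -/
noncomputable def mr2 (a b : E3) : E3 := ⟪a, a⟫ • b - ⟪a, b⟫ • a

lemma cx_mr1 (a b : E3) : cx (mr1 a b) = mm1 (cx a) (cx b) := by
  ext i
  simp [mr1, mm1, cx_dot]

lemma cx_mr2 (a b : E3) : cx (mr2 a b) = mm2 (cx a) (cx b) := by
  ext i
  simp [mr2, mm2, cx_dot]

lemma inner_mr1 (a b z : E3) : ⟪z, mr1 a b⟫ = ⟪b, b⟫ * ⟪z, a⟫ - ⟪a, b⟫ * ⟪z, b⟫ := by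
  rw [mr1, inner_sub_right, real_inner_smul_right, real_inner_smul_right]

lemma inner_mr2 (a b z : E3) : ⟪z, mr2 a b⟫ = ⟪a, a⟫ * ⟪z, b⟫ - ⟪a, b⟫ * ⟪z, a⟫ := by
  rw [mr2, inner_sub_right, real_inner_smul_right, real_inner_smul_right]

/-- the real form of `dPP` -/
noncomputable def dPPr (X a b aa ab bb V V1 V2 V11 V12 V22 : E3) : ℝ :=
  2 * ⟪b, V2⟫ * ⟪aa, crs a b⟫ + ⟪b, b⟫ * (⟪V11, crs a b⟫ + ⟪aa, crs V1 b + crs a V2⟫)
    - 2 * (⟪V1, b⟫ + ⟪a, V2⟫) * ⟪ab, crs a b⟫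
    - 2 * ⟪a, b⟫ * (⟪V12, crs a b⟫ + ⟪ab, crs V1 b + crs a V2⟫)
    + 2 * ⟪a, V1⟫ * ⟪bb, crs a b⟫ + ⟪a, a⟫ * (⟪V22, crs a b⟫ + ⟪bb, crs V1 b + crs a V2⟫)
    + (⟪mr1 a b, V1⟫ + ⟪mr2 a b, V2⟫) * ⟪X, crs a b⟫
    + grm a b * (⟪V, crs a b⟫ + ⟪X, crs V1 b + crs a V2⟫) / 2

lemma cx_dPP (X a b aa ab bb V V1 V2 V11 V12 V22 : E3) :
    dPP (cx X) (cx a) (cx b) (cx aa) (cx ab) (cx bb) (cx V) (cx V1) (cx V2) (cx V11) (cx V12)
      (cx V22) = (dPPr X a b aa ab bb V V1 V2 V11 V12 V22 : ℝ) := by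
  simp only [dPP, dPPr, ← cx_crs, ← cx_mr1, ← cx_mr2, ← map_add, cx_dot, cx_gram]
  push_cast
  ring

/-- the real part of a complex vector -/
noncomputable def reV : C3 →L[ℝ] E3 :=
  (EuclideanSpace.equiv (Fin 3) ℝ).symm.toContinuousLinearMap.comp
    (ContinuousLinearMap.pi fun i => Complex.reCLM.comp (ContinuousLinearMap.proj i))

/-- the imaginary part of a complex vector -/
noncomputable def imV : C3 →L[ℝ] E3 :=
  (EuclideanSpace.equiv (Fin 3) ℝ).symm.toContinuousLinearMap.comp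
    (ContinuousLinearMap.pi fun i => Complex.imCLM.comp (ContinuousLinearMap.proj i))

@[simp] lemma reV_apply (V : C3) (i : Fin 3) : reV V i = (V i).re := rfl
@[simp] lemma imV_apply (V : C3) (i : Fin 3) : imV V i = (V i).im := rfl

lemma re_add_im_V (V : C3) : cx (reV V) + I • cx (imV V) = V := by
  ext i
  simp [mul_comm I]

lemma reV_cx (a : E3) : reV (cx a) = a := by
  ext i
  simp

lemma re_dot (a : E3) (V : C3) : (cx a ⬝ᵥ V).re = ⟪a, reV V⟫ := by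
  simp [dot3, inner3]

lemma im_dot (a : E3) (V : C3) : (cx a ⬝ᵥ V).im = ⟪a, imV V⟫ := by
  simp [dot3, inner3]

/-- at a real jet, `dPP` splits into its real and imaginary parts -/
lemma dPP_split (X a b aa ab bb : E3) (V V1 V2 V11 V12 V22 : C3) :
    dPP (cx X) (cx a) (cx b) (cx aa) (cx ab) (cx bb) V V1 V2 V11 V12 V22
      = (dPPr X a b aa ab bb (reV V) (reV V1) (reV V2) (reV V11) (reV V12) (reV V22) : ℝ)
        + I * (dPPr X a b aa ab bb (imV V) (imV V1) (imV V2) (imV V11) (imV V12) (imV V22) : ℝ) := by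
  rw [← cx_dPP, ← cx_dPP, ← dPP_smul, ← dPP_add]
  simp only [re_add_im_V]

lemma dPP_re (X a b aa ab bb : E3) (V V1 V2 V11 V12 V22 : C3) :
    (dPP (cx X) (cx a) (cx b) (cx aa) (cx ab) (cx bb) V V1 V2 V11 V12 V22).re
      = dPPr X a b aa ab bb (reV V) (reV V1) (reV V2) (reV V11) (reV V12) (reV V22) := by
  rw [dPP_split]; simp

lemma dPP_im (X a b aa ab bb : E3) (V V1 V2 V11 V12 V22 : C3) :
    (dPP (cx X) (cx a) (cx b) (cx aa) (cx ab) (cx bb) V V1 V2 V11 V12 V22).im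
      = dPPr X a b aa ab bb (imV V) (imV V1) (imV V2) (imV V11) (imV V12) (imV V22) := by
  rw [dPP_split]; simp

/-- the derivative of the normal paired with a vector -/
lemma grm_mul_dn (a b V1 V2 z : E3) : grm a b * ⟪z, crs V1 b + crs a V2⟫
    = ⟪z, crs a b⟫ * (⟪mr1 a b, V1⟫ + ⟪mr2 a b, V2⟫) - ⟪z, mr1 a b⟫ * ⟪V1, crs a b⟫
      - ⟪z, mr2 a b⟫ * ⟪V2, crs a b⟫ := by
  simp only [real_inner_comm V1, real_inner_comm V2, inner_mr1, inner_mr2, inner_add_right, grm]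
  simp only [inner3]
  simp [crs]
  ring

/-- the stability operator in a chart, multiplied by the square of the Gram determinant; `c` is
the coefficient of the term of order zero -/
noncomputable def Lch (X a b aa ab bb : E3) (c U U1 U2 U11 U12 U22 : ℝ) : ℝ :=
  grm a b * (⟪b, b⟫ * U11 - 2 * ⟪a, b⟫ * U12 + ⟪a, a⟫ * U22)
    - PPr X a b aa ab bb (mr1 a b) * U1 - PPr X a b aa ab bb (mr2 a b) * U2 + grm a b ^ 2 * c * U

lemma grm_mul_dPPr (X a b aa ab bb V V1 V2 V11 V12 V22 : E3) :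
    grm a b * dPPr X a b aa ab bb V V1 V2 V11 V12 V22
      = grm a b * (2 * ⟪b, V2⟫ * ⟪aa, crs a b⟫ - 2 * (⟪V1, b⟫ + ⟪a, V2⟫) * ⟪ab, crs a b⟫
          + 2 * ⟪a, V1⟫ * ⟪bb, crs a b⟫ + (⟪mr1 a b, V1⟫ + ⟪mr2 a b, V2⟫) * ⟪X, crs a b⟫
          + (⟪b, b⟫ * ⟪V11, crs a b⟫ - 2 * ⟪a, b⟫ * ⟪V12, crs a b⟫ + ⟪a, a⟫ * ⟪V22, crs a b⟫)
          + grm a b * ⟪V, crs a b⟫ / 2)
        + (⟪mr1 a b, V1⟫ + ⟪mr2 a b, V2⟫) * PPr X a b aa ab bb (crs a b)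
        - PPr X a b aa ab bb (mr1 a b) * ⟪V1, crs a b⟫
        - PPr X a b aa ab bb (mr2 a b) * ⟪V2, crs a b⟫ := by
  have h1 := grm_mul_dn a b V1 V2 aa
  have h2 := grm_mul_dn a b V1 V2 ab
  have h3 := grm_mul_dn a b V1 V2 bb
  have h4 := grm_mul_dn a b V1 V2 X
  simp only [dPPr, PPr]
  linear_combination ⟪b, b⟫ * h1 - 2 * ⟪a, b⟫ * h2 + ⟪a, a⟫ * h3 + grm a b / 2 * h4

end Vale.Agent.P218ND
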