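import Vale.Agent.P218ND.Brg1
import Vale.Agent.P218ND.Loc
import Vale.Agent.P218.H63.Geom

/-! The stability operator in a chart is the linearisation of the shrinker operator. -/

open Set Filter Topology
open scoped RealInnerProductSpace

namespace Vale.Agent.P218ND

open Vale.Agent.P218.H63 (IsTubeShrinker lap hessSq stab hess_symm contDiff_gradient inner_gradient)
open Vale.Agent.P218.H313 (tr trL trL_apply tr_add tr_smul)
open Vale.Agent.P218VA (pd pd_congr pd_congr' differentiableAt_pd pd_add)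
open Vale.Agent.P218GA (E3 crs grm PPr IsTube isTube_of_shrinker defect grm_smul crs_par
  sq_inner_crs grm_mul_tr inner_grad_pd inner_grad_pd_pd PPr_smul defect_eq_zero)

section pd
variable {D : Type*} [NormedAddCommGroup D] [NormedSpace ℝ D] {y : D}
variable {G : Type*} [NormedAddCommGroup G] [NormedSpace ℝ G]
variable {G' : Type*} [NormedAddCommGroup G'] [NormedSpace ℝ G']

lemma dcomp {X : D → G} {F : G → G'} (hF : DifferentiableAt ℝ F (X y))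
    (hX : DifferentiableAt ℝ X y) : DifferentiableAt ℝ (fun z => F (X z)) y := hF.comp y hX

lemma pd_comp {X : D → G} {F : G → G'} (hF : DifferentiableAt ℝ F (X y))
    (hX : DifferentiableAt ℝ X y) (v : D) :
    pd (fun z => F (X z)) v y = fderiv ℝ F (X y) (pd X v y) := by
  rw [pd, show (fun z => F (X z)) = F ∘ X from rfl, fderiv_comp y hF hX]
  rfl

lemma pd_clm_apply {B : D → G →L[ℝ] G'} {c : D → G} (hB : DifferentiableAt ℝ B y)
    (hc : DifferentiableAt ℝ c y) (v : D) :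
    pd (fun z => B z (c z)) v y = pd B v y (c y) + B y (pd c v y) := by
  rw [pd, fderiv_clm_apply hB hc]
  simp [pd, add_comm]

lemma pd_inner {E : Type*} [NormedAddCommGroup E] [InnerProductSpace ℝ E] {f g : D → E}
    (hf : DifferentiableAt ℝ f y) (hg : DifferentiableAt ℝ g y) (v : D) :
    pd (fun z => ⟪f z, g z⟫) v y = ⟪pd f v y, g y⟫ + ⟪f y, pd g v y⟫ := by
  rw [pd, fderiv_inner_apply ℝ hf hg, add_comm]
  rfl

end pd

section alg
variable {a b ν : E3}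

lemma grm_mul_inner (hν : ‖ν‖ = 1) (ha : ⟪ν, a⟫ = 0) (hb : ⟪ν, b⟫ = 0) (z N : E3) :
    grm a b * ⟪z, N⟫ = ⟪z, mr1 a b⟫ * ⟪N, a⟫ + ⟪z, mr2 a b⟫ * ⟪N, b⟫
      + grm a b * ⟪z, ν⟫ * ⟪N, ν⟫ := by
  have h := congrArg (fun v => ⟪N, v⟫) (grm_smul a b z)
  rw [crs_par hν ha hb] at h
  simp only [inner_add_right, real_inner_smul_right] at h
  rw [inner_mr1, inner_mr2, real_inner_comm N z, h]
  linear_combination ⟪z, ν⟫ * ⟪N, ν⟫ * sq_inner_crs hν ha hb

lemma grm_mul_PPr (hν : ‖ν‖ = 1) (ha : ⟪ν, a⟫ = 0) (hb : ⟪ν, b⟫ = 0) (X aa ab bb N : E3) :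
    grm a b * PPr X a b aa ab bb N = PPr X a b aa ab bb (mr1 a b) * ⟪N, a⟫
      + PPr X a b aa ab bb (mr2 a b) * ⟪N, b⟫ + grm a b * ⟪N, ν⟫ * PPr X a b aa ab bb ν := by
  have h1 := grm_mul_inner hν ha hb aa N
  have h2 := grm_mul_inner hν ha hb ab N
  have h3 := grm_mul_inner hν ha hb bb N
  have h4 := grm_mul_inner hν ha hb X N
  simp only [PPr]
  linear_combination ⟪b, b⟫ * h1 - 2 * ⟪a, b⟫ * h2 + ⟪a, a⟫ * h3 + grm a b / 2 * h4

lemma grm_mul_tr' (hν : ‖ν‖ = 1) (ha : ⟪ν, a⟫ = 0) (hb : ⟪ν, b⟫ = 0) (H : E3 →L[ℝ] E3)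
    (hs : ⟪H a, b⟫ = ⟪H b, a⟫) : grm a b * (tr H - ⟪H ν, ν⟫)
      = ⟪b, b⟫ * ⟪H a, a⟫ - 2 * ⟪a, b⟫ * ⟪H b, a⟫ + ⟪a, a⟫ * ⟪H b, b⟫ := by
  have h := grm_mul_tr H a b
  rw [crs_par hν ha hb, map_smul, real_inner_smul_left, real_inner_smul_right, hs] at h
  linear_combination h + ⟪H ν, ν⟫ * sq_inner_crs hν ha hb

lemma dPP_alg (hν : ‖ν‖ = 1) (ha : ⟪ν, a⟫ = 0) (hb : ⟪ν, b⟫ = 0) (hg : grm a b ≠ 0)
    {A : E3 →L[ℝ] E3} (hs : ∀ u v, ⟪A u, v⟫ = ⟪u, A v⟫) (hA : A ν = 0) {X aa ab bb : E3}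
    (s11 : ⟪aa, ν⟫ = -⟪A a, a⟫) (s12 : ⟪ab, ν⟫ = -⟪A b, a⟫) (s22 : ⟪bb, ν⟫ = -⟪A b, b⟫)
    (hP : PPr X a b aa ab bb ν = 0) (V V1 V2 V11 V12 V22 : E3) {T11 T12 T22 c : ℝ}
    (e1 : grm a b * (⟪X, A V⟫ / 2 - ⟪ν, V⟫ * c)
      = ⟪b, b⟫ * T11 - 2 * ⟪a, b⟫ * T12 + ⟪a, a⟫ * T22) :
    ⟪crs a b, ν⟫ * dPPr X a b aa ab bb V V1 V2 V11 V12 V22
      = Lch X a b aa ab bb (c + 1 / 2) ⟪ν, V⟫ (⟪A a, V⟫ + ⟪ν, V1⟫) (⟪A b, V⟫ + ⟪ν, V2⟫)
        (T11 + ⟪aa, A V⟫ + ⟪V1, A a⟫ + ⟪V1, A a⟫ + ⟪V11, ν⟫)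
        (T12 + ⟪ab, A V⟫ + ⟪V2, A a⟫ + ⟪V1, A b⟫ + ⟪V12, ν⟫)
        (T22 + ⟪bb, A V⟫ + ⟪V2, A b⟫ + ⟪V2, A b⟫ + ⟪V22, ν⟫) := by
  have hAν : ∀ z, ⟪A z, ν⟫ = 0 := fun z => by rw [hs, hA, inner_zero_right]
  have hsq := sq_inner_crs hν ha hb
  have hn : ∀ z : E3, ⟪z, crs a b⟫ = ⟪crs a b, ν⟫ * ⟪z, ν⟫ := fun z => by
    conv_lhs => rw [crs_par hν ha hb, real_inner_smul_right]
  have hP' : PPr X a b aa ab bb (crs a b) = 0 := by
    rw [crs_par hν ha hb, PPr_smul, hP, mul_zero]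
  have e0 := grm_mul_dPPr X a b aa ab bb V V1 V2 V11 V12 V22
  have e2 := grm_mul_PPr hν ha hb X aa ab bb (A V)
  have f11 := grm_mul_inner hν ha hb V1 (A a)
  have f12 := grm_mul_inner hν ha hb V1 (A b)
  have f21 := grm_mul_inner hν ha hb V2 (A a)
  have f22 := grm_mul_inner hν ha hb V2 (A b)
  have s21 : ⟪A a, b⟫ = ⟪A b, a⟫ := by rw [hs, real_inner_comm]
  rw [hAν] at e2 f11 f12 f21 f22
  rw [s21] at f11 f21
  rw [real_inner_comm a (A V), real_inner_comm b (A V), ← hs, ← hs, PPr] at e2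
  rw [hP', hn aa, hn ab, hn bb, hn X, hn V, hn V1, hn V2, hn V11, hn V12, hn V22, s11, s12, s22,
    real_inner_comm V1 (mr1 a b), real_inner_comm V2 (mr2 a b), real_inner_comm V2 b,
    real_inner_comm V2 a, real_inner_comm V1 a] at e0
  rw [PPr, s11, s12, s22] at hP
  rw [real_inner_comm V ν] at e1
  have key : grm a b * (2 * ⟪V2, b⟫ * -⟪A a, a⟫ - 2 * (⟪V1, b⟫ + ⟪V2, a⟫) * -⟪A b, a⟫
      + 2 * ⟪V1, a⟫ * -⟪A b, b⟫ + (⟪V1, mr1 a b⟫ + ⟪V2, mr2 a b⟫) * ⟪X, ν⟫)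
      = grm a b * (⟪b, b⟫ * (2 * ⟪V1, A a⟫) - 2 * ⟪a, b⟫ * (⟪V2, A a⟫ + ⟪V1, A b⟫)
        + ⟪a, a⟫ * (2 * ⟪V2, A b⟫)) := by
    have hg' : grm a b = ⟪a, a⟫ * ⟪b, b⟫ - ⟪a, b⟫ ^ 2 := rfl
    simp only [inner_mr1, inner_mr2] at f11 f12 f21 f22 ⊢
    linear_combination (-2 * ⟪b, b⟫) * f11 + 2 * ⟪a, b⟫ * (f21 + f12) - 2 * ⟪a, a⟫ * f22
      + 2 * (⟪b, b⟫ * ⟪V1, a⟫ - ⟪a, b⟫ * ⟪V1, b⟫ + (⟪a, a⟫ * ⟪V2, b⟫ - ⟪a, b⟫ * ⟪V2, a⟫)) * hP
      + (-2 * ⟪V2, b⟫ * ⟪A a, a⟫ + 2 * (⟪V1, b⟫ + ⟪V2, a⟫) * ⟪A b, a⟫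
        - 2 * ⟪V1, a⟫ * ⟪A b, b⟫) * hg'
  refine mul_left_cancel₀ hg ?_
  rw [Lch, real_inner_comm V ν, real_inner_comm V1 ν, real_inner_comm V2 ν]
  linear_combination ⟪crs a b, ν⟫ * e0 + grm a b * key + grm a b ^ 2 * e1 - grm a b * e2
    + (grm a b * (2 * ⟪V2, b⟫ * -⟪A a, a⟫ - 2 * (⟪V1, b⟫ + ⟪V2, a⟫) * -⟪A b, a⟫
      + 2 * ⟪V1, a⟫ * -⟪A b, b⟫ + (⟪V1, mr1 a b⟫ + ⟪V2, mr2 a b⟫) * ⟪X, ν⟫
      + (⟪b, b⟫ * ⟪V11, ν⟫ - 2 * ⟪a, b⟫ * ⟪V12, ν⟫ + ⟪a, a⟫ * ⟪V22, ν⟫) + grm a b * ⟪V, ν⟫ / 2)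
      - PPr X a b aa ab bb (mr1 a b) * ⟪V1, ν⟫ - PPr X a b aa ab bb (mr2 a b) * ⟪V2, ν⟫) * hsq

end alg

section third
variable {E : Type*} [NormedAddCommGroup E] [InnerProductSpace ℝ E] [FiniteDimensional ℝ E]
variable {S : Set E} {w : E → ℝ} {δ C : ℝ}

lemma third_symm (hw : ContDiff ℝ 3 w) (x u v z : E) :
    ⟪fderiv ℝ (fderiv ℝ (gradient w)) x u v, z⟫ = ⟪fderiv ℝ (fderiv ℝ (gradient w)) x z u, v⟫ := by
  have hg2 : ContDiff ℝ 2 (gradient w) := contDiff_gradient hw (by norm_num)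
  have hB : DifferentiableAt ℝ (fderiv ℝ (gradient w)) x :=
    (hg2.fderiv_right (m := 1) (by norm_num)).differentiable one_ne_zero x
  have hs : IsSymmSndFDerivAt ℝ (gradient w) x := hg2.contDiffAt.isSymmSndFDerivAt (by simp)
  have e : (fun p => ⟪fderiv ℝ (gradient w) p v, z⟫) = fun p => ⟪v, fderiv ℝ (gradient w) p z⟫ :=
    funext fun p => hess_symm (hw.of_le (by norm_num)) p v z
  have h1 : pd (fun p => ⟪fderiv ℝ (gradient w) p v, z⟫) u x
      = pd (fun p => ⟪v, fderiv ℝ (gradient w) p z⟫) u x := by rw [e]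
  rw [pd_inner (hB.clm_apply (differentiableAt_const _)) (differentiableAt_const _),
    pd_inner (differentiableAt_const _) (hB.clm_apply (differentiableAt_const _)),
    pd_clm_apply hB (differentiableAt_const _), pd_clm_apply hB (differentiableAt_const _)] at h1
  simp only [pd, fderiv_fun_const, Pi.zero_apply, zero_apply, map_zero,
    add_zero, inner_zero_left, inner_zero_right, zero_add] at h1
  rw [h1, hs.eq z u, real_inner_comm]

/-- the derivative of the mean curvature -/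
lemma tr_third (h : IsTubeShrinker S w δ C) {x : E} (hx : w x = 0) (V : E) :
    tr (fderiv ℝ (fderiv ℝ (gradient w)) x V) = ⟪x, fderiv ℝ (gradient w) x V⟫ / 2
      - ⟪gradient w x, V⟫ * hessSq w x := by
  have ht := isTube_of_shrinker h
  have hν := ht.unit x hx
  have hg2 : ContDiff ℝ 2 (gradient w) := contDiff_gradient h.smooth (by norm_num)
  have hB : HasFDerivAt (fderiv ℝ (gradient w)) (fderiv ℝ (fderiv ℝ (gradient w)) x) x :=
    ((hg2.fderiv_right (m := 1) (by norm_num)).differentiable one_ne_zero x).hasFDerivAt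
  have hg : HasFDerivAt (gradient w) (fderiv ℝ (gradient w) x) x :=
    (hg2.differentiable two_ne_zero x).hasFDerivAt
  have h1 : HasFDerivAt (fun p => lap w p - ⟪p, gradient w p⟫ * (1 / 2)) _ x :=
    ((trL E).hasFDerivAt.comp x hB).sub (((hasFDerivAt_id x).inner ℝ hg).mul_const (1 / 2))
  have h2 : ⟪gradient w x, V - ⟪gradient w x, V⟫ • gradient w x⟫ = 0 := by
    rw [inner_sub_right, real_inner_smul_right, real_inner_self_eq_norm_sq, hν]; ring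
  have h3 := fderiv_tangent ht.cd1 hx hν h1.differentiableAt (Eventually.of_forall fun p hp => by
    rw [h.shrinker p ((h.mem_iff p).2 hp)]; ring) h2
  rw [h1.fderiv] at h3
  simp only [sub_apply, ContinuousLinearMap.comp_apply, trL_apply,
    smul_apply, ContinuousLinearMap.prod_apply, fderivInnerCLM_apply, id,
    ContinuousLinearMap.id_apply, smul_eq_mul] at h3
  rw [real_inner_comm _ (V - _), h2, map_sub, map_sub, map_smul, map_smul,
    h.riccati (ht.lt_of_zero hx), ht.hess_grad (ht.lt_of_zero hx), smul_zero, sub_zero, smul_neg,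
    sub_neg_eq_add, tr_add, tr_smul] at h3
  change _ = _ - _ * tr _
  linear_combination h3

end third

variable {D : Type*} [NormedAddCommGroup D] [NormedSpace ℝ D] {X V : D → E3} {y : D}
variable {S : Set E3} {w : E3 → ℝ} {δ C : ℝ}

/-- the stability operator in a chart, multiplied by the square of the Gram determinant -/
noncomputable def LchF (d1 d2 : D) (X : D → E3) (c : ℝ) (u : D → ℝ) (y : D) : ℝ :=
  Lch (X y) (pd X d1 y) (pd X d2 y) (pd (pd X d1) d1 y) (pd (pd X d1) d2 y) (pd (pd X d2) d2 y) c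
    (u y) (pd u d1 y) (pd u d2 y) (pd (pd u d1) d1 y) (pd (pd u d1) d2 y) (pd (pd u d2) d2 y)

/-- the linearised shrinker operator of a parametrised surface -/
noncomputable def dPPrF (d1 d2 : D) (X V : D → E3) (y : D) : ℝ :=
  dPPr (X y) (pd X d1 y) (pd X d2 y) (pd (pd X d1) d1 y) (pd (pd X d1) d2 y) (pd (pd X d2) d2 y)
    (V y) (pd V d1 y) (pd V d2 y) (pd (pd V d1) d1 y) (pd (pd V d1) d2 y) (pd (pd V d2) d2 y)

lemma LchF_congr {d1 d2 : D} {c : ℝ} {u u' : D → ℝ} (h : u =ᶠ[𝓝 y] u') :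
    LchF d1 d2 X c u y = LchF d1 d2 X c u' y := by
  unfold LchF
  rw [pd_congr h, pd_congr h, h.self_of_nhds, pd_congr (pd_congr' h d1) d1,
    pd_congr (pd_congr' h d1) d2, pd_congr (pd_congr' h d2) d2]

lemma pd_comp_grad {ζ : E3 → ℝ} (hζ : DifferentiableAt ℝ ζ (X y)) (hX : DifferentiableAt ℝ X y)
    (v : D) : pd (fun z => ζ (X z)) v y = ⟪gradient ζ (X y), pd X v y⟫ := by
  rw [pd_comp hζ hX, inner_gradient]

lemma pd_pd_comp {ζ : E3 → ℝ} (hζ : ContDiff ℝ 2 ζ) (hX : ContDiffAt ℝ 2 X y) (v v' : D) :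
    pd (pd (fun z => ζ (X z)) v) v' y = ⟪fderiv ℝ (gradient ζ) (X y) (pd X v' y), pd X v y⟫
      + ⟪pd (pd X v) v' y, gradient ζ (X y)⟫ := by
  have hg : DifferentiableAt ℝ (gradient ζ) (X y) :=
    (contDiff_gradient hζ (n := 1) (by norm_num)).differentiable one_ne_zero _
  have hd := hX.differentiableAt two_ne_zero
  have h1 : pd (fun z => ζ (X z)) v =ᶠ[𝓝 y] fun z => ⟪gradient ζ (X z), pd X v z⟫ := by
    filter_upwards [hX.eventually (by simp)] with z hz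
    exact pd_comp_grad (hζ.differentiable two_ne_zero _) (hz.differentiableAt two_ne_zero) v
  rw [pd_congr h1, pd_inner (dcomp hg hd) (differentiableAt_pd hX v), pd_comp hg hd,
    real_inner_comm (pd (pd X v) v' y)]

/-- **The stability operator in a chart.** -/
theorem stab_chart (h : IsTubeShrinker S w δ C) (hX : ContDiffAt ℝ 2 X y)
    (h0 : ∀ᶠ z in 𝓝 y, w (X z) = 0) {ζ : E3 → ℝ} (hζ : ContDiffAt ℝ 2 ζ (X y)) {u : D → ℝ}
    (hu : ∀ᶠ z in 𝓝 y, ζ (X z) = u z) (d1 d2 : D) :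
    grm (pd X d1 y) (pd X d2 y) ^ 2 * stab w ζ (X y)
      = LchF d1 d2 X (hessSq w (X y) + 1 / 2) u y := by
  have ht := isTube_of_shrinker h
  have hd := hX.differentiableAt two_ne_zero
  have hν := ht.unit _ h0.self_of_nhds
  have ha := inner_grad_pd (ht.cd1.differentiable one_ne_zero _) hd h0 d1
  have hb := inner_grad_pd (ht.cd1.differentiable one_ne_zero _) hd h0 d2
  obtain ⟨ζ', z1, z2⟩ := exists_glob hζ
  have hu' : u =ᶠ[𝓝 y] fun z => ζ' (X z) := by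
    filter_upwards [hu, hd.continuousAt.tendsto.eventually z2] with z h1 h2
    rw [h2, h1]
  have hP := ht.PPr_grad hX h0 d1 d2
  rw [defect_eq_zero h ((h.mem_iff _).2 h0.self_of_nhds), mul_zero, neg_zero] at hP
  have h1 := grm_mul_PPr hν ha hb (X y) (pd (pd X d1) d1 y) (pd (pd X d1) d2 y)
    (pd (pd X d2) d2 y) (gradient ζ' (X y))
  have h2 := grm_mul_tr' hν ha hb (fderiv ℝ (gradient ζ') (X y))
    (by rw [hess_symm z1, real_inner_comm])
  have dz := z1.differentiable two_ne_zero (X y)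
  rw [hP] at h1
  rw [← stab_congr z2, LchF_congr hu', LchF, Lch, pd_pd_comp z1 hX, pd_pd_comp z1 hX,
    pd_pd_comp z1 hX, pd_comp_grad dz hd, pd_comp_grad dz hd, stab, lap_eq_tr]
  rw [PPr] at h1
  linear_combination grm (pd X d1 y) (pd X d2 y) * h2 - h1

lemma pd_nu (hw : ContDiff ℝ 2 w) (hX : DifferentiableAt ℝ X y) (hV : DifferentiableAt ℝ V y)
    (v : D) : pd (fun z => ⟪gradient w (X z), V z⟫) v y
      = ⟪fderiv ℝ (gradient w) (X y) (pd X v y), V y⟫ + ⟪gradient w (X y), pd V v y⟫ := by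
  have hg : DifferentiableAt ℝ (gradient w) (X y) :=
    (contDiff_gradient hw (n := 1) (by norm_num)).differentiable one_ne_zero _
  rw [pd_inner (dcomp hg hX) hV, pd_comp hg hX]

lemma pd_pd_nu (hw : ContDiff ℝ 3 w) (hX : ContDiffAt ℝ 2 X y) (hV : ContDiffAt ℝ 2 V y)
    (v v' : D) : pd (pd (fun z => ⟪gradient w (X z), V z⟫) v) v' y
      = ⟪fderiv ℝ (fderiv ℝ (gradient w)) (X y) (V y) (pd X v' y), pd X v y⟫
        + ⟪pd (pd X v) v' y, fderiv ℝ (gradient w) (X y) (V y)⟫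
        + ⟪pd V v' y, fderiv ℝ (gradient w) (X y) (pd X v y)⟫
        + ⟪pd V v y, fderiv ℝ (gradient w) (X y) (pd X v' y)⟫
        + ⟪pd (pd V v) v' y, gradient w (X y)⟫ := by
  have hw2 : ContDiff ℝ 2 w := hw.of_le (by norm_num)
  have hg2 : ContDiff ℝ 2 (gradient w) := contDiff_gradient hw (by norm_num)
  have hB : DifferentiableAt ℝ (fderiv ℝ (gradient w)) (X y) :=
    (hg2.fderiv_right (m := 1) (by norm_num)).differentiable one_ne_zero _
  have hg : DifferentiableAt ℝ (gradient w) (X y) := hg2.differentiable two_ne_zero _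
  have hd := hX.differentiableAt two_ne_zero
  have hv := hV.differentiableAt two_ne_zero
  have h1 : pd (fun z => ⟪gradient w (X z), V z⟫) v =ᶠ[𝓝 y] fun z =>
      ⟪fderiv ℝ (gradient w) (X z) (pd X v z), V z⟫ + ⟪gradient w (X z), pd V v z⟫ := by
    filter_upwards [hX.eventually (by simp), hV.eventually (by simp)] with z hz hz'
    exact pd_nu hw2 (hz.differentiableAt two_ne_zero) (hz'.differentiableAt two_ne_zero) v
  have h2 : DifferentiableAt ℝ (fun z => fderiv ℝ (gradient w) (X z) (pd X v z)) y :=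
    (dcomp hB hd).clm_apply (differentiableAt_pd hX v)
  rw [pd_congr h1, pd_add (h2.inner ℝ hv) ((dcomp hg hd).inner ℝ (differentiableAt_pd hV v)),
    pd_inner h2 hv, pd_inner (dcomp hg hd) (differentiableAt_pd hV v),
    pd_clm_apply (dcomp hB hd) (differentiableAt_pd hX v), pd_comp hB hd, pd_comp hg hd,
    inner_add_left, third_symm hw, hess_symm hw2 _ (pd (pd X v) v' y),
    real_inner_comm (pd V v' y), real_inner_comm (pd V v y), real_inner_comm (pd (pd V v) v' y)]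
  ring

/-- **The linearised shrinker operator** depends only on the normal part of the vector field. -/
theorem dPP_chart (h : IsTubeShrinker S w δ C) (hX : ContDiffAt ℝ 2 X y)
    (h0 : ∀ᶠ z in 𝓝 y, w (X z) = 0) (hV : ContDiffAt ℝ 2 V y) {d1 d2 : D}
    (hg : grm (pd X d1 y) (pd X d2 y) ≠ 0) :
    ⟪crs (pd X d1 y) (pd X d2 y), gradient w (X y)⟫ * dPPrF d1 d2 X V y
      = LchF d1 d2 X (hessSq w (X y) + 1 / 2) (fun z => ⟪gradient w (X z), V z⟫) y := by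
  have ht := isTube_of_shrinker h
  have hd := hX.differentiableAt two_ne_zero
  have hv := hV.differentiableAt two_ne_zero
  have hν := ht.unit _ h0.self_of_nhds
  have ha := inner_grad_pd (ht.cd1.differentiable one_ne_zero _) hd h0 d1
  have hb := inner_grad_pd (ht.cd1.differentiable one_ne_zero _) hd h0 d2
  have hP := ht.PPr_grad hX h0 d1 d2
  rw [defect_eq_zero h ((h.mem_iff _).2 h0.self_of_nhds), mul_zero, neg_zero] at hP
  have hA := ht.hess_grad (ht.lt_of_zero h0.self_of_nhds)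
  have e1 := grm_mul_tr' hν ha hb (fderiv ℝ (fderiv ℝ (gradient w)) (X y) (V y)) (by
    rw [← third_symm h.smooth, ← third_symm h.smooth (X y) (pd X d2 y),
      ((contDiff_gradient (n := 2) h.smooth (by norm_num)).contDiffAt.isSymmSndFDerivAt
        (by simp)).eq])
  rw [tr_third h h0.self_of_nhds, ← third_symm h.smooth,
    h.riccati (ht.lt_of_zero h0.self_of_nhds), neg_apply,
    ContinuousLinearMap.comp_apply, hA, map_zero, neg_zero, inner_zero_left, sub_zero] at e1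
  rw [LchF, pd_pd_nu h.smooth hX hV, pd_pd_nu h.smooth hX hV, pd_pd_nu h.smooth hX hV,
    pd_nu ht.smooth hd hv, pd_nu ht.smooth hd hv]
  exact dPP_alg hν ha hb hg (hess_symm ht.smooth _) hA (inner_grad_pd_pd ht.smooth hX h0 d1 d1)
    (inner_grad_pd_pd ht.smooth hX h0 d1 d2) (inner_grad_pd_pd ht.smooth hX h0 d2 d2) hP
    _ _ _ _ _ _ e1

/-- **The bridge**: the linearised shrinker operator is the stability operator. -/
theorem dPP_eq_stab (h : IsTubeShrinker S w δ C) (hX : ContDiffAt ℝ 2 X y)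
    (h0 : ∀ᶠ z in 𝓝 y, w (X z) = 0) (hV : ContDiffAt ℝ 2 V y) {d1 d2 : D}
    (hg : grm (pd X d1 y) (pd X d2 y) ≠ 0) {ζ : E3 → ℝ} (hζ : ContDiffAt ℝ 2 ζ (X y))
    (hu : ∀ᶠ z in 𝓝 y, ζ (X z) = ⟪gradient w (X z), V z⟫) :
    ⟪crs (pd X d1 y) (pd X d2 y), gradient w (X y)⟫ * dPPrF d1 d2 X V y
      = grm (pd X d1 y) (pd X d2 y) ^ 2 * stab w ζ (X y) := by
  rw [dPP_chart h hX h0 hV hg, stab_chart h hX h0 hζ hu]

end Vale.Agent.P218ND
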