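import Vale.Agent.P218ND.Brg3

/-! The fields `inj`, `indep`, `nd` for a modified distance function. -/

open MeasureTheory Set Filter Topology Module
open scoped RealInnerProductSpace ContDiff

namespace Vale.Agent.P218ND

open Vale.Agent.P218.H63 (hessSq stab gaussArea)
open Vale.Agent.P218VA
open Vale.Agent.P218GA (E3 Model)
open Vale.Agent.P272.K.LIN

lemma stab_congr_left {E : Type*} [NormedAddCommGroup E] [InnerProductSpace ℝ E]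
    [FiniteDimensional ℝ E] {w w₀ : E → ℝ} {x : E} (h : w₀ =ᶠ[𝓝 x] w) (ζ : E → ℝ) :
    stab w₀ ζ x = stab w ζ x := by
  have h1 : gradient w₀ =ᶠ[𝓝 x] gradient w := h.gradient
  simp only [stab, hessSq, h1.fderiv_eq, h1.eq_of_nhds]

variable {S : Set E3} {w : E3 → ℝ} {δ C : ℝ} {ι κ M : Type} [TopologicalSpace M]
  [ChartedSpace E2 M] (m : Model S w δ C ι κ M) [Finite ι] [Finite κ] [T2Space M]
  [RSm E2 M] [CompactSpace M] [MeasurableSpace M] [BorelSpace M]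

/-- `co9_M` for a function `w₀` which agrees with `w` near the surface -/
theorem co9_M' {P Λ : Type*} [NormedAddCommGroup P] [NormedSpace ℝ P] [NormedAddCommGroup Λ]
    [NormedSpace ℝ Λ] [FiniteDimensional ℝ P] [FiniteDimensional ℝ Λ]
    (hd : finrank ℝ P = finrank ℝ Λ) {v : P →ₗ[ℝ] (E3 → ℝ)} {e : Λ →ₗ[ℝ] (E3 → ℝ)}
    (hv : ∀ b, MemLp (fun x => v b (m.F x)) 2 m.mu0)
    (he : ∀ l, MemLp (fun x => e l (m.F x)) 2 m.mu0)
    (vel : ∀ b, ∃ l, ∀ x ∈ m.reg, CkAt 2 (fun z => v b (m.F z)) x ∧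
      LM m (fun z => v b (m.F z)) x = e l (m.F x))
    (pair : ∀ b, (∀ l, ∫ x, v b (m.F x) * e l (m.F x) ∂m.mu0 = 0) → b = 0)
    (solv : ∀ g : E3 → ℝ, ContDiff ℝ ∞ g → HasCompactSupport g → ∃ (u : M → ℝ) (l : Λ),
      (∀ x ∈ m.reg, CkAt 2 u x ∧ LM m u x = g (m.F x) + e l (m.F x)) ∧ MemLp u 2 m.mu0)
    {w₀ : E3 → ℝ} (zero0 : ∀ x, w₀ x = 0 ↔ w x = 0) (eq0 : ∀ x, w₀ x = 0 → w₀ =ᶠ[𝓝 x] w) :
    (∀ b, (∀ x, w₀ x = 0 → v b x = 0) → b = 0) ∧ (∀ l, (∀ x, w₀ x = 0 → e l x = 0) → l = 0) ∧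
    ∀ (u : E3 → ℝ) (l : Λ), MemLp u 2 (gaussArea 2 {x | w₀ x = 0}) →
      (∀ ζ : E3 → ℝ, ContDiff ℝ 2 ζ → HasCompactSupport ζ →
        ∫ x, u x * stab w₀ ζ x ∂(gaussArea 2 {x | w₀ x = 0})
          = ∫ x, e l x * ζ x ∂(gaussArea 2 {x | w₀ x = 0})) →
      ∃ b, u =ᵐ[gaussArea 2 {x | w₀ x = 0}] v b := by
  obtain ⟨h1, h2, h3⟩ := co9_M m hd hv he vel pair solv
  have e0 : {x | w₀ x = 0} = {x | w x = 0} := Set.ext zero0
  simp only [e0]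
  refine ⟨fun b hb => h1 b fun x hx => hb x ((zero0 x).2 hx),
    fun l hl => h2 l fun x hx => hl x ((zero0 x).2 hx), fun u l hu hw => h3 u l hu ?_⟩
  intro ζ a b
  rw [← hw ζ a b]
  refine integral_congr_ae ?_
  filter_upwards [(shr m).ae_zero] with x hx
  rw [stab_congr_left (eq0 x ((zero0 x).2 hx))]

end Vale.Agent.P218ND
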