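import Vale.Agent.P218ND.Green

/-! Cutoffs, the Caccioppoli inequality, and testing with square integrable solutions. -/

open MeasureTheory Set Filter Topology Metric Module
open scoped ENNReal NNReal RealInnerProductSpace

namespace Vale.Agent.P218ND

set_option linter.unusedSectionVars false

open Vale.Agent.P218.H63 (lap hessSq stab gaussArea contDiff_gradient inner_gradient)
open Vale.Agent.P218.H313 (tr abs_tr_le tr_smul)

variable {E : Type*} [NormedAddCommGroup E] [InnerProductSpace ℝ E] [FiniteDimensional ℝ E]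

/-- a fixed bump -/
noncomputable def bmp (E : Type*) [NormedAddCommGroup E] [InnerProductSpace ℝ E]
    [FiniteDimensional ℝ E] : ContDiffBump (0 : E) :=
  { rIn := 1, rOut := 2, rIn_pos := one_pos, rIn_lt_rOut := one_lt_two }

/-- the cutoffs -/
noncomputable def ct (n : ℕ) (x : E) : ℝ := bmp E (((n : ℝ) + 1)⁻¹ • x)

lemma contDiff_bmp {k : ℕ∞} : ContDiff ℝ k (bmp E) := (bmp E).contDiff

lemma contDiff_ct (n : ℕ) : ContDiff ℝ 2 (ct n : E → ℝ) :=
  (contDiff_bmp (k := 2)).comp (contDiff_const_smul _)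

lemma abs_ct_le (n : ℕ) (x : E) : |ct n x| ≤ 1 := by
  rw [ct, abs_of_nonneg (bmp E).nonneg]
  exact (bmp E).le_one

lemma norm_scale (n : ℕ) (x : E) : ‖((n : ℝ) + 1)⁻¹ • x‖ = ‖x‖ / ((n : ℝ) + 1) := by
  rw [norm_smul, norm_inv, Real.norm_eq_abs, abs_of_pos (by positivity), inv_mul_eq_div]

lemma ct_eq_one {n : ℕ} {x : E} (hx : ‖x‖ ≤ (n : ℝ) + 1) : ct n x = 1 := by
  refine (bmp E).one_of_mem_closedBall ?_
  rw [mem_closedBall, dist_zero_right, norm_scale]
  exact (div_le_one (by positivity)).2 hx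

lemma ct_eq_zero {n : ℕ} {x : E} (hx : 2 * ((n : ℝ) + 1) ≤ ‖x‖) : ct n x = 0 := by
  refine (bmp E).zero_of_le_dist ?_
  rw [dist_zero_right, norm_scale]
  exact (le_div_iff₀ (by positivity)).2 hx

lemma ct_compact (n : ℕ) : HasCompactSupport (ct n : E → ℝ) := by
  refine HasCompactSupport.intro (isCompact_closedBall (0 : E) (2 * ((n : ℝ) + 1))) fun x hx => ?_
  rw [mem_closedBall, dist_zero_right, not_le] at hx
  exact ct_eq_zero hx.le

lemma ct_eventually (x : E) : ∀ᶠ n : ℕ in atTop, (ct n : E → ℝ) =ᶠ[𝓝 x] fun _ => 1 := by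
  obtain ⟨n₀, hn₀⟩ := exists_nat_ge ‖x‖
  filter_upwards [eventually_ge_atTop n₀] with n hn
  have h1 : (n₀ : ℝ) ≤ n := by exact_mod_cast hn
  have h2 : ∀ᶠ y in 𝓝 x, ‖y‖ < (n : ℝ) + 1 :=
    continuous_norm.continuousAt.eventually_lt continuousAt_const (by linarith)
  filter_upwards [h2] with y hy using ct_eq_one hy.le

lemma gradient_ct (n : ℕ) (x : E) :
    gradient (ct n) x = ((n : ℝ) + 1)⁻¹ • gradient (bmp E) (((n : ℝ) + 1)⁻¹ • x) := by
  have h2 : HasFDerivAt (fun y : E => ((n : ℝ) + 1)⁻¹ • y)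
      (((n : ℝ) + 1)⁻¹ • ContinuousLinearMap.id ℝ E) x := (hasFDerivAt_id x).const_smul _
  have h3 := ((contDiff_bmp (E := E) (k := 1)).differentiable (by norm_num)
    (((n : ℝ) + 1)⁻¹ • x)).hasFDerivAt.comp x h2
  have h4 : fderiv ℝ (ct n) x = _ := h3.fderiv
  apply ext_inner_right ℝ
  intro v
  rw [inner_gradient, h4, inner_smul_left, inner_gradient]
  simp

lemma hess_ct (n : ℕ) (x : E) : fderiv ℝ (gradient (ct n)) x
    = (((n : ℝ) + 1)⁻¹ * ((n : ℝ) + 1)⁻¹) • fderiv ℝ (gradient (bmp E)) (((n : ℝ) + 1)⁻¹ • x) := by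
  have h2 : HasFDerivAt (fun y : E => ((n : ℝ) + 1)⁻¹ • y)
      (((n : ℝ) + 1)⁻¹ • ContinuousLinearMap.id ℝ E) x := (hasFDerivAt_id x).const_smul _
  have h1 : ContDiff ℝ 1 (gradient (bmp E)) :=
    contDiff_gradient (contDiff_bmp (k := 2)) (by norm_num)
  have h3 := ((h1.differentiable (by norm_num)
    (((n : ℝ) + 1)⁻¹ • x)).hasFDerivAt.comp x h2).const_smul ((n : ℝ) + 1)⁻¹
  rw [show gradient (ct n : E → ℝ) = _ from funext (gradient_ct n)]
  refine h3.fderiv.trans ?_
  ext v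
  simp [smul_smul]

lemma L0_of_const {w f : E → ℝ} {x : E} {c : ℝ} (h : f =ᶠ[𝓝 x] fun _ => c) : L0 w f x = 0 := by
  have e1 : gradient f =ᶠ[𝓝 x] fun _ => 0 := by
    filter_upwards [h.gradient] with y hy
    rw [hy, gradient_fun_const]
  have e2 : fderiv ℝ (gradient f) x = 0 := by rw [e1.fderiv_eq]; simp
  simp [L0, lap, e2, e1.eq_of_nhds]

lemma exists_ct_bound (E : Type*) [NormedAddCommGroup E] [InnerProductSpace ℝ E]
    [FiniteDimensional ℝ E] : ∃ K : ℝ, 0 ≤ K ∧ ∀ (n : ℕ) (x : E),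
    ‖gradient (ct n) x‖ ≤ K / ((n : ℝ) + 1) ∧
      ∀ w : E → ℝ, ‖gradient w x‖ = 1 → |L0 w (ct n) x| ≤ K := by
  have c1 : HasCompactSupport (gradient (bmp E)) :=
    ((bmp E).hasCompactSupport.fderiv ℝ).comp_left (g := (InnerProductSpace.toDual ℝ E).symm)
      (map_zero _)
  have g1 := continuous_grad (contDiff_bmp (E := E) (k := 1))
  obtain ⟨A, hA⟩ := c1.exists_bound_of_continuous g1
  obtain ⟨B, hB⟩ := (c1.fderiv ℝ).exists_bound_of_continuous
    (continuous_hess (contDiff_bmp (E := E) (k := 2)))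
  obtain ⟨D, hD⟩ := (HasCompactSupport.exists_bound_of_continuous
    (f := fun y : E => ⟪y, gradient (bmp E) y⟫) (c1.mono fun x hx h0 => hx (by simp [h0]))
    (continuous_id.inner g1))
  have A0 : 0 ≤ A := (norm_nonneg _).trans (hA 0)
  have B0 : 0 ≤ B := (norm_nonneg _).trans (hB 0)
  have D0 : 0 ≤ D := (norm_nonneg _).trans (hD 0)
  refine ⟨A + (finrank ℝ E * B + B + D), by positivity, fun n x => ⟨?_, fun w hw => ?_⟩⟩
  · rw [gradient_ct, norm_scale]
    gcongr
    exact (hA _).trans (le_add_of_nonneg_right (by positivity))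
  · have r1 : ((n : ℝ) + 1)⁻¹ ≤ 1 := inv_le_one_of_one_le₀ (by simp)
    have r0 : 0 ≤ ((n : ℝ) + 1)⁻¹ := by positivity
    have hH : ‖fderiv ℝ (gradient (ct n)) x‖ ≤ B := by
      rw [hess_ct, norm_smul, Real.norm_eq_abs, abs_of_nonneg (by positivity)]
      exact (mul_le_mul (mul_le_one₀ r1 r0 r1) (hB _) (norm_nonneg _) zero_le_one).trans_eq
        (one_mul _)
    have b1 : |lap (ct n) x| ≤ finrank ℝ E * B :=
      (abs_tr_le _).trans (mul_le_mul_of_nonneg_left hH (Nat.cast_nonneg _))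
    have b2 : |⟪fderiv ℝ (gradient (ct n)) x (gradient w x), gradient w x⟫| ≤ B := by
      refine (abs_real_inner_le_norm _ _).trans ?_
      have := (fderiv ℝ (gradient (ct n)) x).le_opNorm (gradient w x)
      rw [hw] at this ⊢
      linarith
    have b3 : |⟪x, gradient (ct n) x⟫| ≤ D := by
      rw [gradient_ct, inner_smul_right, ← real_inner_smul_left]
      exact hD _
    have b4 := abs_le.1 b1
    have b5 := abs_le.1 b2
    have b6 := abs_le.1 b3
    rw [L0, abs_le]
    constructor <;> linarith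

lemma ct_big {n : ℕ} {x : E} (h : gradient (ct n) x ≠ 0) : ct (2 * n + 1) x = 1 := by
  refine ct_eq_one ?_
  by_contra hc
  push_cast at hc
  have h2 : ∀ᶠ y in 𝓝 x, 2 * ((n : ℝ) + 1) < ‖y‖ :=
    continuousAt_const.eventually_lt continuous_norm.continuousAt (by linarith)
  have h3 : (ct n : E → ℝ) =ᶠ[𝓝 x] fun _ => 0 := by
    filter_upwards [h2] with y hy using ct_eq_zero hy.le
  exact h (by rw [h3.gradient_eq, gradient_fun_const])

variable [MeasurableSpace E] [BorelSpace E] {m : ℕ} {w : E → ℝ} {δ C : ℝ}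

lemma int_mul {μ : Measure E} {f g : E → ℝ} (hf : MemLp f 2 μ) (hg : MemLp g 2 μ) :
    Integrable (fun x => f x * g x) μ := hf.integrable_mul hg

namespace Shr

variable (h : Shr m w δ C)
include h

lemma memLp_L0 {U : E → ℝ} (hU : ContDiff ℝ 2 U) (h1 : MemLp U 2 (ga m w))
    (h2 : MemLp (stab w U) 2 (ga m w)) : MemLp (L0 w U) 2 (ga m w) := by
  have h3 : MemLp (fun x => (hessSq w x + 1 / 2) * U x) 2 (ga m w) := by
    refine (h1.const_mul (finrank ℝ E * (C * C) + 1 / 2)).of_le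
      ((((continuous_hessSq h.tube.smooth).add continuous_const).mul
        hU.continuous).aestronglyMeasurable) ?_
    filter_upwards [h.ae_zero] with x hx
    have b0 := h.tube.hess_le x (h.tube.lt_of_zero hx)
    have b1 : |hessSq w x| ≤ finrank ℝ E * (C * C) :=
      (abs_tr_le _).trans (mul_le_mul_of_nonneg_left ((ContinuousLinearMap.opNorm_comp_le _ _).trans
        (mul_self_le_mul_self (norm_nonneg _) b0)) (Nat.cast_nonneg _))
    rw [norm_mul, norm_mul]
    refine mul_le_mul_of_nonneg_right ?_ (norm_nonneg _)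
    rw [Real.norm_eq_abs, Real.norm_eq_abs]
    refine le_trans ?_ (le_abs_self _)
    have := abs_le.1 b1
    rw [abs_le]
    constructor <;> linarith
  have e : L0 w U = stab w U - fun x => (hessSq w x + 1 / 2) * U x := by
    ext x
    simp [stab_eq]
  rw [e]
  exact h2.sub h3

lemma integrable_en {U : E → ℝ} (hU : ContDiff ℝ 2 U) (n : ℕ) :
    Integrable (fun x => ct n x ^ 2 * ‖tv w U x‖ ^ 2) (ga m w) := by
  refine h.integrable_cc (((contDiff_ct n).continuous.pow 2).mul
    ((continuous_tv h.tube.cd1 (hU.of_le (by norm_num))).norm.pow 2)) ?_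
  exact HasCompactSupport.mul_right ((ct_compact n).mono fun x hx h0 => hx (by simp [h0]))

/-- **Caccioppoli's inequality.** -/
theorem caccioppoli {U : E → ℝ} (hU : ContDiff ℝ 2 U) (h1 : MemLp U 2 (ga m w))
    (h2 : MemLp (stab w U) 2 (ga m w)) :
    ∃ M : ℝ, ∀ n : ℕ, ∫ x, ct n x ^ 2 * ‖tv w U x‖ ^ 2 ∂(ga m w) ≤ M := by
  obtain ⟨K, K0, hK⟩ := exists_ct_bound E
  have o : (1 : WithTop ℕ∞) ≤ 2 := by norm_num
  have iB : Integrable (fun x => 2 * |U x * L0 w U x| + 4 * K ^ 2 * (U x * U x)) (ga m w) :=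
    ((int_mul h1 (h.memLp_L0 hU h1 h2)).abs.const_mul 2).add ((int_mul h1 h1).const_mul _)
  refine ⟨∫ x, (2 * |U x * L0 w U x| + 4 * K ^ 2 * (U x * U x)) ∂(ga m w), fun n => ?_⟩
  have hc := contDiff_ct (E := E) n
  have hf : ContDiff ℝ 2 fun x => ct n x * (ct n x * U x) := hc.mul (hc.mul hU)
  have hfc : HasCompactSupport fun x => ct n x * (ct n x * U x) := (ct_compact n).mul_right
  have e0 := h.ibp (hf.of_le o) hU (Or.inl hfc)
  have iI : Integrable (fun x => ct n x * (ct n x * U x) * L0 w U x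
      + ⟪tv w (fun x => ct n x * (ct n x * U x)) x, tv w U x⟫) (ga m w) := by
    refine h.integrable_cc ((hf.continuous.mul (continuous_L0 h.tube.smooth hU)).add
      ((continuous_tv h.tube.cd1 (hf.of_le o)).inner (continuous_tv h.tube.cd1 (hU.of_le o)))) ?_
    refine HasCompactSupport.intro hfc fun x hx => ?_
    have e1 : (fun x => ct n x * (ct n x * U x)) =ᶠ[𝓝 x] fun _ => 0 :=
      notMem_tsupport_iff_eventuallyEq.1 hx
    have e2 : ct n x * (ct n x * U x) = 0 := e1.eq_of_nhds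
    simp [e2, tv, e1.gradient_eq]
  have i2 : Integrable (fun x => 2 * (ct n x * (ct n x * U x) * L0 w U x
      + ⟪tv w (fun x => ct n x * (ct n x * U x)) x, tv w U x⟫)) (ga m w) := iI.const_mul 2
  calc _ ≤ ∫ x, (2 * (ct n x * (ct n x * U x) * L0 w U x
        + ⟪tv w (fun x => ct n x * (ct n x * U x)) x, tv w U x⟫)
        + (2 * |U x * L0 w U x| + 4 * K ^ 2 * (U x * U x))) ∂(ga m w) := by
        refine integral_mono_ae (h.integrable_en hU n) (i2.add iB) ?_
        filter_upwards [h.ae_zero] with x hx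
        have dc := hc.differentiable two_ne_zero x
        have dU := hU.differentiable two_ne_zero x
        have b1 : ‖tv w (ct n) x‖ ≤ K := (norm_tv_le (h.tube.unit x hx) _).trans
          ((hK n x).1.trans (div_le_self K0 (by simp)))
        have b2 := abs_le.1 ((abs_real_inner_le_norm (tv w (ct n) x) (tv w U x)).trans
          (mul_le_mul_of_nonneg_right b1 (norm_nonneg _)))
        have b3 := abs_ct_le n x
        have b4 : ct n x * ct n x ≤ 1 := by nlinarith [abs_le.1 b3]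
        have b5 : -|U x * L0 w U x| ≤ ct n x * ct n x * (U x * L0 w U x) := by
          have := neg_abs_le (ct n x * ct n x * (U x * L0 w U x))
          rw [abs_mul (ct n x * ct n x), abs_mul_self] at this
          nlinarith [abs_nonneg (U x * L0 w U x)]
        rw [tv_mul w dc (dc.fun_mul dU), tv_mul w dc dU]
        simp only [inner_add_left, inner_smul_left, conj_trivial, real_inner_self_eq_norm_sq]
        set p := ⟪tv w (ct n) x, tv w U x⟫
        set t := ‖tv w U x‖
        have b6 : -(|ct n x * U x| * (K * t)) ≤ ct n x * U x * p := by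
          have := neg_abs_le (ct n x * U x * p)
          rw [abs_mul _ p] at this
          have b7 : |p| ≤ K * t := abs_le.2 b2
          nlinarith [abs_nonneg (ct n x * U x)]
        rw [abs_mul (ct n x)] at b6
        have b8 := sq_nonneg (|ct n x| * t - 2 * K * |U x|)
        have b9 : |ct n x| ^ 2 = ct n x ^ 2 := sq_abs _
        have b10 : |U x| ^ 2 = U x ^ 2 := sq_abs _
        nlinarith
    _ = _ := by rw [integral_add i2 iB, integral_const_mul, e0]; ring

omit h in
lemma lim_ct {μ : Measure E} {g : E → ℝ} (hg : Integrable g μ) :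
    (∀ n, Integrable (fun x => ct n x * g x) μ) ∧
      Tendsto (fun n => ∫ x, ct n x * g x ∂μ) atTop (𝓝 (∫ x, g x ∂μ)) := by
  have cm : ∀ n, AEStronglyMeasurable (ct n : E → ℝ) μ := fun n =>
    (contDiff_ct n).continuous.aestronglyMeasurable
  refine ⟨fun n => hg.bdd_mul (cm n) (Eventually.of_forall (abs_ct_le n)), ?_⟩
  refine tendsto_integral_of_dominated_convergence (fun x => ‖g x‖)
    (fun n => (cm n).mul hg.1) hg.norm (fun n => Eventually.of_forall fun x => ?_)
    (Eventually.of_forall fun x => tendsto_const_nhds.congr' ?_)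
  · rw [norm_mul]
    exact mul_le_of_le_one_left (norm_nonneg _) (abs_ct_le n x)
  · filter_upwards [ct_eventually x] with n hn
    rw [hn.eq_of_nhds, one_mul]

lemma lim_L0 {g : E → ℝ} (hg : Integrable g (ga m w)) :
    (∀ n, Integrable (fun x => g x * L0 w (ct n) x) (ga m w)) ∧
      Tendsto (fun n => ∫ x, g x * L0 w (ct n) x ∂(ga m w)) atTop (𝓝 0) := by
  obtain ⟨K, K0, hK⟩ := exists_ct_bound E
  have bd : ∀ n, ∀ᵐ x ∂(ga m w), ‖g x * L0 w (ct n) x‖ ≤ ‖g x‖ * K := by
    intro n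
    filter_upwards [h.ae_zero] with x hx
    rw [norm_mul]
    exact mul_le_mul_of_nonneg_left ((hK n x).2 w (h.tube.unit x hx)) (norm_nonneg _)
  have ms : ∀ n, AEStronglyMeasurable (fun x => g x * L0 w (ct n) x) (ga m w) := fun n =>
    hg.1.mul (continuous_L0 h.tube.smooth (contDiff_ct n)).aestronglyMeasurable
  refine ⟨fun n => (hg.norm.mul_const K).mono' (ms n) (bd n), ?_⟩
  have := tendsto_integral_of_dominated_convergence (f := fun _ => (0 : ℝ))
    (fun x => ‖g x‖ * K) ms (hg.norm.mul_const K) bd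
    (Eventually.of_forall fun x => tendsto_const_nhds.congr' ?_)
  · simpa using this
  · filter_upwards [ct_eventually x] with n hn
    rw [L0_of_const hn, mul_zero]

omit h in
lemma cross_le {K : ℝ} (K0 : 0 ≤ K) {n : ℕ} {x : E} (hK : ‖gradient (ct n) x‖ ≤ K)
    (hx : ‖gradient w x‖ = 1) (a : ℝ) (U : E → ℝ) :
    ‖a * (2 * ⟪tv w (ct n) x, tv w U x⟫)‖
      ≤ K * (a * a + ct (2 * n + 1) x ^ 2 * ‖tv w U x‖ ^ 2) := by
  by_cases hg : gradient (ct n) x = 0
  · have : tv w (ct n) x = 0 := by simp [tv, hg]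
    rw [this, inner_zero_left, mul_zero, mul_zero, norm_zero]
    exact mul_nonneg K0 (add_nonneg (mul_self_nonneg _) (by positivity))
  · have b1 := (norm_tv_le hx (ct n)).trans hK
    have b2 := (abs_real_inner_le_norm (tv w (ct n) x) (tv w U x)).trans
      (mul_le_mul_of_nonneg_right b1 (norm_nonneg _))
    rw [ct_big hg, Real.norm_eq_abs, abs_mul, abs_mul, abs_two, ← abs_mul_abs_self a]
    calc |a| * (2 * |⟪tv w (ct n) x, tv w U x⟫|) ≤ |a| * (2 * (K * ‖tv w U x‖)) := by gcongr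
      _ = K * (2 * |a| * ‖tv w U x‖) := by ring
      _ ≤ _ := by
        refine mul_le_mul_of_nonneg_left ?_ K0
        nlinarith [sq_nonneg (|a| - ‖tv w U x‖)]

lemma lim_tv {u U : E → ℝ} (hu : MemLp u 2 (ga m w)) (hU : ContDiff ℝ 2 U)
    (h1 : MemLp U 2 (ga m w)) (h2 : MemLp (stab w U) 2 (ga m w)) :
    (∀ n, Integrable (fun x => u x * (2 * ⟪tv w (ct n) x, tv w U x⟫)) (ga m w)) ∧
      Tendsto (fun n => ∫ x, u x * (2 * ⟪tv w (ct n) x, tv w U x⟫) ∂(ga m w)) atTop (𝓝 0) := by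
  obtain ⟨K, K0, hK⟩ := exists_ct_bound E
  obtain ⟨M, hM⟩ := h.caccioppoli hU h1 h2
  have o : (1 : WithTop ℕ∞) ≤ 2 := by norm_num
  have iB : ∀ n : ℕ, Integrable (fun x => K / ((n : ℝ) + 1) *
      (u x * u x + ct (2 * n + 1) x ^ 2 * ‖tv w U x‖ ^ 2)) (ga m w) := fun n =>
    ((int_mul hu hu).add (h.integrable_en hU _)).const_mul _
  have bd3 : ∀ n : ℕ, ∀ᵐ x ∂(ga m w), ‖u x * (2 * ⟪tv w (ct n) x, tv w U x⟫)‖
      ≤ K / ((n : ℝ) + 1) * (u x * u x + ct (2 * n + 1) x ^ 2 * ‖tv w U x‖ ^ 2) := by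
    intro n
    filter_upwards [h.ae_zero] with x hx
    exact cross_le (by positivity) (hK n x).1 (h.tube.unit x hx) _ _
  have ms3 : ∀ n, AEStronglyMeasurable (fun x => u x * (2 * ⟪tv w (ct n) x, tv w U x⟫))
      (ga m w) := fun n => hu.1.mul (continuous_const.mul
        ((continuous_tv h.tube.cd1 ((contDiff_ct n).of_le o)).inner
          (continuous_tv h.tube.cd1 (hU.of_le o)))).aestronglyMeasurable
  refine ⟨fun n => (iB n).mono' (ms3 n) (bd3 n), ?_⟩
  have t1 : Tendsto (fun n : ℕ => K / ((n : ℝ) + 1) * (∫ x, u x * u x ∂(ga m w) + M)) atTop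
      (𝓝 0) := by
    have := (tendsto_const_div_atTop_nhds_zero_nat K).comp (tendsto_add_atTop_nat 1)
    simpa using this.mul_const (∫ x, u x * u x ∂(ga m w) + M)
  refine squeeze_zero_norm (fun n => ?_) t1
  refine (norm_integral_le_of_norm_le (iB n) (bd3 n)).trans ?_
  rw [integral_const_mul, integral_add (int_mul hu hu) (h.integrable_en hU _)]
  exact mul_le_mul_of_nonneg_left (add_le_add le_rfl (hM _)) (by positivity)

/-- A weak solution in `L²` may be tested with square integrable classical solutions. -/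
theorem test_ext {u f U : E → ℝ} (hu : MemLp u 2 (ga m w)) (hf : MemLp f 2 (ga m w))
    (hweak : ∀ ζ : E → ℝ, ContDiff ℝ 2 ζ → HasCompactSupport ζ →
      ∫ x, u x * stab w ζ x ∂(ga m w) = ∫ x, f x * ζ x ∂(ga m w))
    (hU : ContDiff ℝ 2 U) (h1 : MemLp U 2 (ga m w)) (h2 : MemLp (stab w U) 2 (ga m w)) :
    ∫ x, u x * stab w U x ∂(ga m w) = ∫ x, f x * U x ∂(ga m w) := by
  obtain ⟨j1, l1⟩ := lim_ct (int_mul hu h2)
  obtain ⟨j2, l2⟩ := h.lim_L0 (int_mul hu h1)
  obtain ⟨j3, l3⟩ := h.lim_tv hu hU h1 h2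
  have e : ∀ n, ∫ x, ct n x * (f x * U x) ∂(ga m w) = ∫ x, ct n x * (u x * stab w U x) ∂(ga m w)
      + ∫ x, u x * U x * L0 w (ct n) x ∂(ga m w)
      + ∫ x, u x * (2 * ⟪tv w (ct n) x, tv w U x⟫) ∂(ga m w) := by
    intro n
    have j4 : Integrable (fun x => ct n x * (u x * stab w U x) + u x * U x * L0 w (ct n) x)
        (ga m w) := (j1 n).add (j2 n)
    have e1 := hweak _ ((contDiff_ct n).mul hU) (ct_compact n).mul_right
    rw [← integral_add (j1 n) (j2 n), ← integral_add j4 (j3 n)]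
    calc _ = ∫ x, f x * (ct n x * U x) ∂(ga m w) := by congr 1; ext x; ring
      _ = _ := by
        rw [← e1]
        refine integral_congr_ae ?_
        filter_upwards [h.ae_zero] with x hx
        rw [stab_eq, stab_eq, L0_mul (contDiff_ct n) hU (h.tube.unit x hx)]
        ring
  have l4 := (l1.add l2).add l3
  simp only [add_zero, ← e] at l4
  exact tendsto_nhds_unique l4 (lim_ct (int_mul hf h1)).2

/-- **Green's identity** for square integrable solutions. -/
theorem green {U V : E → ℝ} (hU : ContDiff ℝ 2 U) (hV : ContDiff ℝ 2 V)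
    (hU1 : MemLp U 2 (ga m w)) (hU2 : MemLp (stab w U) 2 (ga m w))
    (hV1 : MemLp V 2 (ga m w)) (hV2 : MemLp (stab w V) 2 (ga m w)) :
    ∫ x, U x * stab w V x ∂(ga m w) = ∫ x, stab w U x * V x ∂(ga m w) :=
  h.test_ext hU1 hU2 (fun _ hζ hc => h.green_cc hU hζ hc) hV hV1 hV2

end Shr

end Vale.Agent.P218ND
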