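import Vale.Agent.P218GA.Mom

/-! Integration by parts for the stability operator of a self-shrinker. -/

open MeasureTheory Set Filter Topology Metric Module
open scoped ENNReal NNReal RealInnerProductSpace

namespace Vale.Agent.P218ND

set_option linter.unusedSectionVars false

open Vale.Agent.P214 (divAlong)
open Vale.Agent.P218.H63 (lap hessSq stab gaussArea contDiff_gradient hess_symm IsTubeShrinker
  inner_gradient inner_gradient')
open Vale.Agent.P218.H313 (tr trL rho tr_add tr_smul tr_comp_smulRight abs_tr_le)
open Vale.Agent.P218GA (IsTube area hyp dv dv_smul divAlong_hyp lap_eq)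

variable {E : Type*} [NormedAddCommGroup E] [InnerProductSpace ℝ E] [FiniteDimensional ℝ E]

/-- the drift Laplacian of `{w = 0}` applied to an ambient function -/
noncomputable def L0 (w η : E → ℝ) (x : E) : ℝ :=
  lap η x - ⟪fderiv ℝ (gradient η) x (gradient w x), gradient w x⟫ - ⟪x, gradient η x⟫ / 2

/-- the tangential gradient -/
noncomputable def tv (w f : E → ℝ) (x : E) : E :=
  gradient f x - ⟪gradient f x, gradient w x⟫ • gradient w x

lemma stab_eq (w η : E → ℝ) (x : E) : stab w η x = L0 w η x + (hessSq w x + 1 / 2) * η x := rfl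

lemma inner_tv {w : E → ℝ} {x : E} (hx : ‖gradient w x‖ = 1) (f g : E → ℝ) :
    ⟪tv w f x, tv w g x⟫ = ⟪gradient f x, gradient g x⟫
      - ⟪gradient f x, gradient w x⟫ * ⟪gradient g x, gradient w x⟫ := by
  have h1 : ⟪gradient w x, gradient w x⟫ = 1 := by rw [real_inner_self_eq_norm_sq, hx]; norm_num
  simp only [tv, inner_sub_left, inner_sub_right, inner_smul_left, inner_smul_right, h1,
    conj_trivial, real_inner_comm (gradient g x) (gradient w x)]
  ring

lemma norm_tv_le {w : E → ℝ} {x : E} (hx : ‖gradient w x‖ = 1) (f : E → ℝ) :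
    ‖tv w f x‖ ≤ ‖gradient f x‖ := by
  have h := inner_tv hx f f
  rw [real_inner_self_eq_norm_sq, real_inner_self_eq_norm_sq] at h
  have h2 : ‖tv w f x‖ ^ 2 ≤ ‖gradient f x‖ ^ 2 := by
    nlinarith [mul_self_nonneg ⟪gradient f x, gradient w x⟫]
  exact (pow_le_pow_iff_left₀ (norm_nonneg _) (norm_nonneg _) two_ne_zero).1 h2

lemma gradient_mul {f g : E → ℝ} {x : E} (hf : DifferentiableAt ℝ f x)
    (hg : DifferentiableAt ℝ g x) :
    gradient (fun y => f y * g y) x = f x • gradient g x + g x • gradient f x := by
  apply ext_inner_right ℝ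
  intro v
  rw [inner_gradient, fderiv_fun_mul hf hg, inner_add_left, inner_smul_left, inner_smul_left,
    inner_gradient, inner_gradient]
  simp

lemma gradient_add' {f g : E → ℝ} {x : E} (hf : DifferentiableAt ℝ f x)
    (hg : DifferentiableAt ℝ g x) :
    gradient (fun y => f y + g y) x = gradient f x + gradient g x := by
  apply ext_inner_right ℝ
  intro v
  rw [inner_gradient, fderiv_fun_add hf hg, inner_add_left, inner_gradient, inner_gradient]
  rfl

lemma gradient_cmul {f : E → ℝ} {x : E} (c : ℝ) (hf : DifferentiableAt ℝ f x) :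
    gradient (fun y => c * f y) x = c • gradient f x := by
  apply ext_inner_right ℝ
  intro v
  rw [inner_gradient, fderiv_const_mul hf, inner_smul_left, inner_gradient]
  simp

lemma tv_mul {f g : E → ℝ} {x : E} (w : E → ℝ) (hf : DifferentiableAt ℝ f x)
    (hg : DifferentiableAt ℝ g x) :
    tv w (fun y => f y * g y) x = f x • tv w g x + g x • tv w f x := by
  simp only [tv, gradient_mul hf hg, inner_add_left, inner_smul_left, conj_trivial]
  module

lemma hess_mul {f g : E → ℝ} (hf : ContDiff ℝ 2 f) (hg : ContDiff ℝ 2 g) (x : E) :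
    fderiv ℝ (gradient fun y => f y * g y) x
      = (f x • fderiv ℝ (gradient g) x + (fderiv ℝ f x).smulRight (gradient g x))
        + (g x • fderiv ℝ (gradient f) x + (fderiv ℝ g x).smulRight (gradient f x)) := by
  have df := hf.differentiable two_ne_zero
  have dg := hg.differentiable two_ne_zero
  have e : gradient (fun y => f y * g y) = fun y => f y • gradient g y + g y • gradient f y :=
    funext fun y => gradient_mul (df y) (dg y)
  have gf := (contDiff_gradient (n := 1) hf (by norm_num)).differentiable one_ne_zero x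
  have gg := (contDiff_gradient (n := 1) hg (by norm_num)).differentiable one_ne_zero x
  rw [e]
  exact (((df x).hasFDerivAt.smul gg.hasFDerivAt).add
    ((dg x).hasFDerivAt.smul gf.hasFDerivAt)).fderiv

lemma tr_smulRight (l : E →L[ℝ] ℝ) (v : E) : tr (l.smulRight v) = l v := by
  have := tr_comp_smulRight (ContinuousLinearMap.id ℝ E) l v
  rwa [ContinuousLinearMap.id_comp] at this

lemma lap_eq_tr (f : E → ℝ) (x : E) : lap f x = tr (fderiv ℝ (gradient f) x) := rfl

/-- the product rule -/
lemma L0_mul {w f g : E → ℝ} (hf : ContDiff ℝ 2 f) (hg : ContDiff ℝ 2 g) {x : E}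
    (hx : ‖gradient w x‖ = 1) :
    L0 w (fun y => f y * g y) x = f x * L0 w g x + g x * L0 w f x + 2 * ⟪tv w f x, tv w g x⟫ := by
  have df := hf.differentiable two_ne_zero x
  have dg := hg.differentiable two_ne_zero x
  rw [inner_tv hx]
  simp only [L0, lap_eq_tr, hess_mul hf hg, gradient_mul df dg, tr_add, tr_smul, tr_smulRight,
    add_apply, smul_apply,
    ContinuousLinearMap.smulRight_apply, inner_add_left, inner_add_right, inner_smul_left,
    inner_smul_right, conj_trivial, ← inner_gradient,
    real_inner_comm (gradient f x) (gradient g x)]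
  ring

lemma hess_add {f g : E → ℝ} (hf : ContDiff ℝ 2 f) (hg : ContDiff ℝ 2 g) (x : E) :
    fderiv ℝ (gradient fun y => f y + g y) x
      = fderiv ℝ (gradient f) x + fderiv ℝ (gradient g) x := by
  have df := hf.differentiable two_ne_zero
  have dg := hg.differentiable two_ne_zero
  have e : gradient (fun y => f y + g y) = fun y => gradient f y + gradient g y :=
    funext fun y => gradient_add' (df y) (dg y)
  have gf := (contDiff_gradient (n := 1) hf (by norm_num)).differentiable one_ne_zero x
  have gg := (contDiff_gradient (n := 1) hg (by norm_num)).differentiable one_ne_zero x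
  rw [e]
  exact (gf.hasFDerivAt.add gg.hasFDerivAt).fderiv

lemma hess_cmul {f : E → ℝ} (c : ℝ) (hf : ContDiff ℝ 2 f) (x : E) :
    fderiv ℝ (gradient fun y => c * f y) x = c • fderiv ℝ (gradient f) x := by
  have df := hf.differentiable two_ne_zero
  have e : gradient (fun y => c * f y) = fun y => c • gradient f y :=
    funext fun y => gradient_cmul c (df y)
  have gf := (contDiff_gradient (n := 1) hf (by norm_num)).differentiable one_ne_zero x
  rw [e]
  exact (gf.hasFDerivAt.const_smul c).fderiv

lemma stab_add {w f g : E → ℝ} (hf : ContDiff ℝ 2 f) (hg : ContDiff ℝ 2 g) (x : E) :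
    stab w (fun y => f y + g y) x = stab w f x + stab w g x := by
  have df := hf.differentiable two_ne_zero x
  have dg := hg.differentiable two_ne_zero x
  simp only [stab, lap_eq_tr, hess_add hf hg, gradient_add' df dg, tr_add,
    add_apply, inner_add_left, inner_add_right]
  ring

lemma stab_cmul {w f : E → ℝ} (c : ℝ) (hf : ContDiff ℝ 2 f) (x : E) :
    stab w (fun y => c * f y) x = c * stab w f x := by
  have df := hf.differentiable two_ne_zero x
  simp only [stab, lap_eq_tr, hess_cmul c hf, gradient_cmul c df, tr_smul,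
    smul_apply, inner_smul_left, inner_smul_right, conj_trivial]
  ring

lemma stab_congr {w f g : E → ℝ} {x : E} (h : f =ᶠ[𝓝 x] g) : stab w f x = stab w g x := by
  have h1 : gradient f =ᶠ[𝓝 x] gradient g := h.gradient
  simp only [stab, lap, h1.fderiv_eq, h1.eq_of_nhds, h.eq_of_nhds]

lemma continuous_hess {f : E → ℝ} (hf : ContDiff ℝ 2 f) : Continuous (fderiv ℝ (gradient f)) :=
  (contDiff_gradient (n := 1) hf (by norm_num)).continuous_fderiv one_ne_zero

lemma continuous_grad {f : E → ℝ} (hf : ContDiff ℝ 1 f) : Continuous (gradient f) :=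
  (contDiff_gradient (n := 0) hf (by norm_num)).continuous

lemma continuous_L0 {w f : E → ℝ} (hw : ContDiff ℝ 2 w) (hf : ContDiff ℝ 2 f) :
    Continuous (L0 w f) := by
  have gw := continuous_grad (hw.of_le (by norm_num : (1 : WithTop ℕ∞) ≤ 2))
  have gf := continuous_grad (hf.of_le (by norm_num : (1 : WithTop ℕ∞) ≤ 2))
  exact ((P218GA.continuous_lap hf).sub (((continuous_hess hf).clm_apply gw).inner gw)).sub
    ((continuous_id.inner gf).div_const 2)

lemma continuous_hessSq {w : E → ℝ} (hw : ContDiff ℝ 2 w) : Continuous (hessSq w) :=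
  (trL E).continuous.comp ((continuous_hess hw).clm_comp (continuous_hess hw))

lemma continuous_stab {w f : E → ℝ} (hw : ContDiff ℝ 2 w) (hf : ContDiff ℝ 2 f) :
    Continuous (stab w f) :=
  (continuous_L0 hw hf).add (((continuous_hessSq hw).add continuous_const).mul hf.continuous)

lemma continuous_tv {w f : E → ℝ} (hw : ContDiff ℝ 1 w) (hf : ContDiff ℝ 1 f) :
    Continuous (tv w f) :=
  (continuous_grad hf).sub (((continuous_grad hf).inner (continuous_grad hw)).smul
    (continuous_grad hw))

lemma contDiff_rho : ContDiff ℝ 1 (rho : E → ℝ) := by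
  unfold rho
  exact ((contDiff_norm_sq ℝ).neg.div_const 4).exp

lemma fderiv_rho (x v : E) : fderiv ℝ (rho : E → ℝ) x v = -(rho x * ⟪x, v⟫ / 2) := by
  have h1 : HasFDerivAt (fun y : E => -‖y‖ ^ 2 / 4) ((-(1 / 4) : ℝ) • ((2 : ℕ) • innerSL ℝ x)) x := by
    have := (hasStrictFDerivAt_norm_sq x).hasFDerivAt.const_mul (-(1 / 4) : ℝ)
    refine this.congr_of_eventuallyEq (Eventually.of_forall fun y => ?_)
    simp only
    ring
  have h2 : HasFDerivAt (rho : E → ℝ) _ x := h1.exp
  rw [h2.fderiv]
  simp [rho]
  ring

variable [MeasurableSpace E] [BorelSpace E] {m : ℕ} {w : E → ℝ} {δ C : ℝ}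

/-- the Gaussian area of the zero set -/
noncomputable abbrev ga (m : ℕ) (w : E → ℝ) : Measure E := gaussArea m {x | w x = 0}

lemma measurable_dens : Measurable fun x : E => ENNReal.ofReal (Real.exp (-‖x‖ ^ 2 / 4)) := by
  fun_prop

lemma integral_ga (f : E → ℝ) : ∫ x, f x ∂(ga m w) = ∫ x, f x * rho x ∂(area m w) := by
  unfold ga gaussArea
  rw [integral_withDensity_eq_integral_toReal_smul measurable_dens
    (Eventually.of_forall fun x => ENNReal.ofReal_lt_top)]
  refine integral_congr_ae (Eventually.of_forall fun x => ?_)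
  simp only [smul_eq_mul]
  rw [ENNReal.toReal_ofReal (Real.exp_pos _).le, mul_comm]
  rfl

lemma integrable_ga {f : E → ℝ} (h : Integrable (fun x => f x * rho x) (area m w)) :
    Integrable f (ga m w) := by
  unfold ga gaussArea
  rw [integrable_withDensity_iff measurable_dens
    (Eventually.of_forall fun x => ENNReal.ofReal_lt_top)]
  refine h.congr (Eventually.of_forall fun x => ?_)
  simp only
  rw [ENNReal.toReal_ofReal (Real.exp_pos _).le]
  rfl

lemma ae_ga (hw : Continuous w) : ∀ᵐ x ∂(ga m w), w x = 0 :=
  (withDensity_absolutelyContinuous _ _).ae_le (P218GA.ae_area hw)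

/-- a self-shrinker with a tube, `C²` version -/
structure Shr (m : ℕ) (w : E → ℝ) (δ C : ℝ) : Prop where
  dim : finrank ℝ E = m + 1
  tube : IsTube w δ C
  eqn : ∀ x, w x = 0 → lap w x = ⟪x, gradient w x⟫ / 2

lemma Shr.of_shrinker {S : Set E} (hE : finrank ℝ E = m + 1) (h : IsTubeShrinker S w δ C) :
    Shr m w δ C :=
  ⟨hE, P218GA.isTube_of_shrinker h, fun x hx => h.shrinker x ((h.mem_iff x).2 hx)⟩

namespace Shr

variable (h : Shr m w δ C)
include h

lemma ae_zero : ∀ᵐ x ∂(ga m w), w x = 0 := ae_ga h.tube.smooth.continuous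

lemma integrable_pow (p : ℕ) : Integrable (fun x : E => (1 + ‖x‖) ^ p) (ga m w) :=
  integrable_ga ((P218GA.exists_rho_bound h.dim h.tube.pos C p).choose_spec w h.tube).1

lemma finite : IsFiniteMeasure (ga m w) := by
  have := h.integrable_pow 0
  simp only [pow_zero] at this
  exact (integrable_const_iff_isFiniteMeasure one_ne_zero).1 this

lemma integrable_cc {f : E → ℝ} (hf : Continuous f) (hc : HasCompactSupport f) :
    Integrable f (ga m w) :=
  haveI := h.finite
  hf.integrable_of_hasCompactSupport hc

/-- **Integration by parts.** -/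
theorem ibp {f η : E → ℝ} (hf : ContDiff ℝ 1 f) (hη : ContDiff ℝ 2 η)
    (hc : HasCompactSupport f ∨ HasCompactSupport η) :
    ∫ x, (f x * L0 w η x + ⟪tv w f x, tv w η x⟫) ∂(ga m w) = 0 := by
  have hlf := h.tube.locFin h.dim
  have gη : ContDiff ℝ 1 (gradient η) := contDiff_gradient hη (by norm_num)
  have hF : ContDiff ℝ 1 fun x => f x * rho x := hf.mul contDiff_rho
  have hX : ContDiff ℝ 1 fun x => (f x * rho x) • gradient η x := hF.smul gη
  have hXc : HasCompactSupport fun x => (f x * rho x) • gradient η x := by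
    rcases hc with hc | hc
    · exact hc.mul_right.smul_right
    · have : HasCompactSupport (gradient η) :=
        (hc.fderiv ℝ).comp_left (g := (InnerProductSpace.toDual ℝ E).symm) (map_zero _)
      exact this.smul_left
  have h1 := h.tube.div_theorem h.dim hX hXc
  have i1 : Integrable (fun x => ⟪(f x * rho x) • gradient η x, gradient w x⟫ * lap w x)
      (area m w) := by
    refine Continuous.integrable_of_hasCompactSupport
      ((hX.continuous.inner h.tube.cdg.continuous).mul (P218GA.continuous_lap h.tube.smooth)) ?_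
    exact HasCompactSupport.mul_right (hXc.mono fun x hx h0 => hx (by simp only [h0]; simp))
  have e : ∀ᵐ x ∂(area m w), (f x * L0 w η x + ⟪tv w f x, tv w η x⟫) * rho x
      = divAlong (hyp (gradient w x)) (fun x => (f x * rho x) • gradient η x) x
        - ⟪(f x * rho x) • gradient η x, gradient w x⟫ * lap w x := by
    filter_upwards [P218GA.ae_area h.tube.smooth.continuous] with x hx
    have dF := hF.differentiable one_ne_zero x
    have dG := gη.differentiable one_ne_zero x
    have df := hf.differentiable one_ne_zero x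
    have dr := (contDiff_rho (E := E)).differentiable one_ne_zero x
    rw [divAlong_hyp (h.tube.unit x hx), dv_smul dF dG, fderiv_fun_smul dF dG,
      fderiv_fun_mul df dr, inner_tv (h.tube.unit x hx), h.eqn x hx, ← lap_eq]
    simp only [L0, add_apply, smul_apply,
      ContinuousLinearMap.smulRight_apply, inner_add_right, inner_smul_left, inner_smul_right,
      conj_trivial, smul_eq_mul, fderiv_rho, ← inner_gradient f,
      real_inner_comm (gradient η x) (gradient w x),
      real_inner_comm (fderiv ℝ (gradient η) x (gradient w x)) (gradient w x)]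
    ring
  have i0 : Integrable (fun x => divAlong (hyp (gradient w x))
      (fun x => (f x * rho x) • gradient η x) x) (area m w) := by
    have c0 : Continuous fun x => dv (fun x => (f x * rho x) • gradient η x) x
        - ⟪gradient w x, fderiv ℝ (fun x => (f x * rho x) • gradient η x) x (gradient w x)⟫ :=
      (P218GA.continuous_dv hX).sub (h.tube.cdg.continuous.inner
        ((hX.continuous_fderiv one_ne_zero).clm_apply h.tube.cdg.continuous))
    have s0 : HasCompactSupport fun x => dv (fun x => (f x * rho x) • gradient η x) x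
        - ⟪gradient w x, fderiv ℝ (fun x => (f x * rho x) • gradient η x) x (gradient w x)⟫ :=
      (hXc.fderiv ℝ).mono fun x hx h0 => hx (by simp only [dv, h0]; simp [tr])
    refine (c0.integrable_of_hasCompactSupport s0).congr ?_
    filter_upwards [P218GA.ae_area h.tube.smooth.continuous] with x hx
    rw [divAlong_hyp (h.tube.unit x hx)]
  rw [integral_ga, integral_congr_ae e, integral_sub i0 i1, h1, sub_self]

/-- **Green's identity** when one of the functions has compact support. -/
theorem green_cc {f η : E → ℝ} (hf : ContDiff ℝ 2 f) (hη : ContDiff ℝ 2 η)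
    (hc : HasCompactSupport η) :
    ∫ x, f x * stab w η x ∂(ga m w) = ∫ x, stab w f x * η x ∂(ga m w) := by
  have o : (1 : WithTop ℕ∞) ≤ 2 := by norm_num
  have h1 := h.ibp (hf.of_le o) hη (Or.inr hc)
  have h2 := h.ibp (hη.of_le o) hf (Or.inl hc)
  have hw := h.tube.smooth
  have z : ∀ x, x ∉ tsupport η → η x = 0 ∧ gradient η x = 0 ∧ fderiv ℝ (gradient η) x = 0 := by
    intro x hx
    have e0 : η =ᶠ[𝓝 x] fun _ => 0 := notMem_tsupport_iff_eventuallyEq.1 hx
    have e1 : gradient η =ᶠ[𝓝 x] fun _ => 0 := by
      filter_upwards [e0.gradient] with y hy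
      rw [hy, gradient_fun_const]
    exact ⟨e0.eq_of_nhds, e1.eq_of_nhds, by rw [e1.fderiv_eq]; simp⟩
  have ct := (continuous_tv h.tube.cd1 (hf.of_le o)).inner (𝕜 := ℝ)
    (continuous_tv h.tube.cd1 (hη.of_le o))
  have ct' := (continuous_tv h.tube.cd1 (hη.of_le o)).inner (𝕜 := ℝ)
    (continuous_tv h.tube.cd1 (hf.of_le o))
  have i1 : Integrable (fun x => f x * L0 w η x + ⟪tv w f x, tv w η x⟫) (ga m w) :=
    h.integrable_cc ((hf.continuous.mul (continuous_L0 hw hη)).add ct)
      (HasCompactSupport.intro hc fun x hx => by simp [L0, lap, tv, z x hx])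
  have i2 : Integrable (fun x => η x * L0 w f x + ⟪tv w η x, tv w f x⟫) (ga m w) :=
    h.integrable_cc ((hη.continuous.mul (continuous_L0 hw hf)).add ct')
      (HasCompactSupport.intro hc fun x hx => by simp [tv, z x hx])
  have i3 : Integrable (fun x => stab w f x * η x) (ga m w) :=
    h.integrable_cc ((continuous_stab hw hf).mul hη.continuous) hc.mul_left
  have e : ∀ x, f x * stab w η x = (f x * L0 w η x + ⟪tv w f x, tv w η x⟫)
      - (η x * L0 w f x + ⟪tv w η x, tv w f x⟫) + stab w f x * η x := by
    intro x
    rw [stab_eq, stab_eq, real_inner_comm]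
    ring
  have i4 : Integrable (fun x => (f x * L0 w η x + ⟪tv w f x, tv w η x⟫)
      - (η x * L0 w f x + ⟪tv w η x, tv w f x⟫)) (ga m w) := i1.sub i2
  simp only [e]
  rw [integral_add i4 i3, integral_sub i1 i2, h1, h2]
  ring

end Shr

end Vale.Agent.P218ND
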